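import Vale.Agent.P057Z.Sa.Sk
import Vale.Agent.P057Z.Ke.Nm

/-!
# P057Z, block Sa: products of trigonometric approximations, iterated averages
-/

open Finset
open scoped BigOperators

namespace Vale.Agent.P057Z.Sa

open Vale.Agent.P057Z Vale.Agent.P057Z.Ke

namespace Fap

theorem sum_sm {β ι κ : Type} [AddCommMonoid β] [Fintype ι] [DecidableEq ι] [Fintype κ]
    [DecidableEq κ] (K0 : ℕ) (g : (ι → ℤ) → (κ → ℤ) → β) :
    ∑ k ∈ Sm (ι ⊕ κ) K0, g (k ∘ Sum.inl) (k ∘ Sum.inr) = ∑ a ∈ Sm ι K0, ∑ b ∈ Sm κ K0, g a b := by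
  rw [← sum_product']
  exact sum_equiv (Equiv.sumArrowEquivProdArrow ι κ ℤ)
    (fun k => by simp [Sm, Fintype.mem_piFinset, Equiv.sumArrowEquivProdArrow]) fun _ _ => rfl

theorem pi_succ {α : Type} [DecidableEq α] (s : Finset α) {m : ℕ} (G : (Fin (m + 1) → α) → ℝ) :
    𝔼 y ∈ Fintype.piFinset (fun _ : Fin (m + 1) => s), G y =
      𝔼 x ∈ s, 𝔼 y ∈ Fintype.piFinset (fun _ : Fin m => s), G (Matrix.vecCons x y) := by
  rw [← expect_product']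
  exact (expect_equiv (Fin.consEquiv fun _ => α)
    (fun k => by simp [Fintype.mem_piFinset, Fin.forall_fin_succ, Fin.consEquiv])
    fun _ _ => rfl).symm

theorem pi_zero {α : Type} [DecidableEq α] (s : Finset α) (G : (Fin 0 → α) → ℝ) :
    𝔼 y ∈ Fintype.piFinset (fun _ : Fin 0 => s), G y = G Matrix.vecEmpty := by
  rw [Fintype.piFinset_of_isEmpty, univ_unique, expect_singleton]
  exact congrArg G (Subsingleton.elim _ _)

end Fap

open Fap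

theorem fap : FAP := by
  intro Q _ ι κ _ _ _ _ Φ1 Φ2 K0 M1 η1 M2 η2 S ⟨c1, a1, b1⟩ ⟨c2, a2, b2⟩ hS
  have m1 : 0 ≤ M1 := (sum_nonneg fun _ _ => norm_nonneg _).trans a1
  refine ⟨fun k => c1 (k ∘ Sum.inl) * c2 (k ∘ Sum.inr), ?_, fun u => ?_⟩
  · rw [sum_sm K0 fun a b => ‖c1 a * c2 b‖]
    simp only [norm_mul, ← mul_sum, ← sum_mul]
    exact mul_le_mul a1 a2 (sum_nonneg fun _ _ => norm_nonneg _) m1
  · have e : ∑ k ∈ Sm (ι ⊕ κ) K0, c1 (k ∘ Sum.inl) * c2 (k ∘ Sum.inr) * ch (cs Q k ⬝ᵥ u) =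
        (∑ k ∈ Sm ι K0, c1 k * ch (cs Q k ⬝ᵥ u ∘ Sum.inl)) *
          ∑ k ∈ Sm κ K0, c2 k * ch (cs Q k ⬝ᵥ u ∘ Sum.inr) := by
      rw [sum_mul_sum, ← sum_sm]
      refine sum_congr rfl fun k _ => ?_
      rw [mul_mul_mul_comm, ← ch_add, dotProduct, Fintype.sum_sum_type]
      rfl
    have k1 : ‖∑ k ∈ Sm ι K0, c1 k * ch (cs Q k ⬝ᵥ u ∘ Sum.inl)‖ ≤ M1 :=
      (norm_sum_le _ _).trans (by simpa only [norm_mul, norm_ch, mul_one] using a1)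
    have k2 := b1 (u ∘ Sum.inl)
    have k3 := b2 (u ∘ Sum.inr)
    have k4 : ‖(Φ2 (u ∘ Sum.inr) : ℂ)‖ ≤ S := by
      rw [Complex.norm_real]; exact hS _
    rw [e, Complex.ofReal_mul]
    generalize (∑ k ∈ Sm ι K0, c1 k * ch (cs Q k ⬝ᵥ u ∘ Sum.inl)) = P1 at k1 k2 ⊢
    generalize (∑ k ∈ Sm κ K0, c2 k * ch (cs Q k ⬝ᵥ u ∘ Sum.inr)) = P2 at k3 ⊢
    rw [show (Φ1 (u ∘ Sum.inl) : ℂ) * Φ2 (u ∘ Sum.inr) - P1 * P2 =
      (Φ1 (u ∘ Sum.inl) - P1) * Φ2 (u ∘ Sum.inr) + P1 * (Φ2 (u ∘ Sum.inr) - P2) by ring]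
    refine (norm_add_le _ _).trans (add_le_add ?_ ?_) <;> rw [norm_mul]
    · exact mul_le_mul k2 k4 (norm_nonneg _) ((norm_nonneg _).trans k2)
    · exact mul_le_mul k1 k3 (norm_nonneg _) m1

theorem pi : PI := by
  refine fun α _ s => ⟨fun G σ => ?_, fun G => by simp only [pi_succ, pi_zero]⟩
  rw [← expect_equiv (s := Fintype.piFinset fun _ : Fin 3 => s) (f := fun y => G (y ∘ σ))
    (Equiv.arrowCongr σ.symm (Equiv.refl α))
    (fun y => by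
      simp only [Fintype.mem_piFinset]
      exact ⟨fun h i => h _, fun h i => by simpa using h (σ.symm i)⟩) fun _ _ => rfl]
  simp only [pi_succ, pi_zero]

end Vale.Agent.P057Z.Sa
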