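import Vale.Agent.P057Z.Sa.Sk
import Vale.Agent.P057Z.Ke.Nm

/-! Block START: the local means are large on average. -/

set_option linter.all false

open Finset
open scoped BigOperators

namespace Vale.Agent.P057Z.Sa

namespace Low

variable {Q : ℕ} [Fact Q.Prime] {n : ℕ} {ι : Type} [Fintype ι] [DecidableEq ι]
  {q : Quad Q n ι} {K : Submodule (ZMod Q) (ι → ZMod Q)} {φ φ0 : (ι → ZMod Q) → ℝ} {K0 K1 : ℕ}
  {ρ' ρ0 M η δ : ℝ} {Tlo Thi : ℕ} {S s : ℝ}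

/-- the three edges -/
def eg (q : Quad Q n ι) (y : Fin 3 → V Q n) : Fin 3 → ι → ZMod Q :=
  ![q.B (y 0) (y 1), q.B (y 0) (y 2), q.B (y 1) (y 2)]

theorem wt_eq (x : V Q n) (y : Fin 3 → V Q n) : wt q K φ φ0 x y =
    (∏ l, φ (lx q x (y l))) * (∏ l, φ0 ((12 : ZMod Q)⁻¹ • q.B (y l) (y l))) * (∏ l, φ (eg q y l)) *
      ((avg K φ 0)⁻¹ ^ 6 * (avg K φ0 0)⁻¹ ^ 3) := by
  simp only [wt, nv, ne, eg, Fin.prod_univ_three, Matrix.cons_val_zero, Matrix.cons_val_one,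
    Matrix.cons_val_two, Matrix.head_cons, Matrix.tail_cons, div_eq_mul_inv, mul_inv]
  ring

theorem prod3 {lam : ℝ} (h : LL lam φ) (u : Fin 3 → ι → ZMod Q) :
    0 ≤ ∏ l, φ (u l) ∧ ∏ l, φ (u l) ≤ 1 ∧ ∀ l, ∏ l, φ (u l) ≤ φ (u l) := by
  refine ⟨prod_nonneg fun l _ => (h.pos _).le,
    prod_le_one (fun l _ => (h.pos _).le) fun l _ => h.le_one _, fun l => ?_⟩
  rw [← mul_prod_erase univ (fun l => φ (u l)) (mem_univ l)]
  exact mul_le_of_le_one_right (h.pos _).le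
    (prod_le_one (fun l _ => (h.pos _).le) fun l _ => h.le_one _)

theorem inv_le {a : ℝ} (hS : 10 ≤ S) (h : 1 ≤ S * a) : 0 ≤ a⁻¹ ∧ a⁻¹ ≤ S := by
  have ha : 0 < a := by
    by_contra hc
    nlinarith [not_lt.1 hc]
  exact ⟨(inv_pos.2 ha).le, (inv_le_iff_one_le_mul₀ ha).2 h⟩

/-- the weight is small as soon as the product of the kernels is -/
theorem wt_le (h : Ok q K φ φ0 K0 K1 ρ' ρ0 M η δ Tlo Thi S s) (x : V Q n) (y : Fin 3 → V Q n) :
    0 ≤ wt q K φ φ0 x y ∧ ∀ m, ((∏ l, φ (lx q x (y l))) ≤ m ∨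
      (∏ l, φ0 ((12 : ZMod Q)⁻¹ • q.B (y l) (y l))) ≤ m ∨ (∏ l, φ (eg q y l)) ≤ m) →
      wt q K φ φ0 x y ≤ m * S ^ 9 := by
  obtain ⟨a0, a1, -⟩ := prod3 h.k1.ll fun l => lx q x (y l)
  obtain ⟨b0, b1, -⟩ := prod3 h.k0.ll fun l => (12 : ZMod Q)⁻¹ • q.B (y l) (y l)
  obtain ⟨c0, c1, -⟩ := prod3 h.k1.ll (eg q y)
  obtain ⟨d0, d1⟩ := inv_le h.hS h.m1
  obtain ⟨e0, e1⟩ := inv_le h.hS h.m0
  rw [wt_eq]
  refine ⟨by positivity, fun m hm => ?_⟩
  have h1 : (avg K φ 0)⁻¹ ^ 6 * (avg K φ0 0)⁻¹ ^ 3 ≤ S ^ 9 :=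
    (mul_le_mul (pow_le_pow_left₀ d0 d1 6) (pow_le_pow_left₀ e0 e1 3) (by positivity)
      (pow_nonneg (d0.trans d1) 6)).trans (le_of_eq (by ring))
  generalize ∏ l, φ (lx q x (y l)) = A at *
  generalize ∏ l, φ0 ((12 : ZMod Q)⁻¹ • q.B (y l) (y l)) = B at *
  generalize ∏ l, φ (eg q y l) = C at *
  have h2 : A * B * C ≤ m := by
    have ab := mul_le_one₀ a1 b0 b1
    rcases hm with hm | hm | hm
    · exact ((mul_le_of_le_one_right (mul_nonneg a0 b0) c1).trans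
        (mul_le_of_le_one_right a0 b1)).trans hm
    · exact ((mul_le_of_le_one_right (mul_nonneg a0 b0) c1).trans
        (mul_le_of_le_one_left b0 a1)).trans hm
    · exact (mul_le_of_le_one_left c0 ab).trans hm
  exact mul_le_mul h2 h1 (by positivity) (le_trans (by positivity) h2)

theorem ker_le {ρ t : ℝ} (h : Kern ρ φ K0 M η) (h0 : 0 < ρ) (h1 : ρ ≤ ρ') (ht : 0 ≤ t)
    {u : ι → ZMod Q} (hu : t < l1 u) : φ u ≤ 2 * Real.exp (-t / ρ') := by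
  refine (h.hi u).trans (mul_le_mul_of_nonneg_left (Real.exp_le_exp.2 ?_) zero_le_two)
  rw [neg_div, neg_div, neg_le_neg_iff]
  exact div_le_div₀ (ht.trans hu.le) hu.le h0 h1

theorem ev_eq (hQ : 12 < Q) (q : Quad Q n ι) (c : Fin 3 → ℤ) (x : V Q n) (y : Fin 3 → V Q n) :
    q.ev (x + ∑ l, c l • y l) = q.ev x + (∑ l, ((c l : ℤ) : ZMod Q) • lx q x (y l) +
      ∑ l, ((6 * c l ^ 2 : ℤ) : ZMod Q) • (12 : ZMod Q)⁻¹ • q.B (y l) (y l) +
      ∑ l, ((![c 0 * c 1, c 0 * c 2, c 1 * c 2] l : ℤ) : ZMod Q) • eg q y l) := by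
  have h12 : (12 : ZMod Q) * 12⁻¹ = 1 := mul_inv_cancel₀ (by
    have := int_ne (Q := Q) 12 (by norm_num) (by rw [abs_of_pos (by norm_num)]; exact_mod_cast hQ)
    exact_mod_cast this)
  have h2 : (2 : ZMod Q)⁻¹ = 6 * 12⁻¹ := inv_eq_of_mul_eq_one_right (by linear_combination h12)
  rw [q.ev_add (by omega), h2]
  simp only [← Int.cast_smul_eq_zsmul (ZMod Q), Fin.sum_univ_three, map_add, map_smul, lx, eg,
    LinearMap.add_apply, LinearMap.smul_apply, Matrix.cons_val_zero, Matrix.cons_val_one,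
    Matrix.cons_val_two, Matrix.head_cons, Matrix.tail_cons, q.sym (y 1) (y 0), q.sym (y 2) (y 0),
    q.sym (y 2) (y 1)]
  funext i
  simp only [Pi.add_apply, Pi.smul_apply, smul_eq_mul]
  push_cast
  linear_combination ((c 0 : ZMod Q) * c 1 * q.B (y 0) (y 1) i + c 0 * c 2 * q.B (y 0) (y 2) i +
    c 1 * c 2 * q.B (y 1) (y 2) i) * h12

theorem l1_le {t : ℝ} {m : ℕ} (k : Fin 3 → ℤ) (u : Fin 3 → ι → ZMod Q) (hk : ∀ l, |k l| ≤ m)
    (hu : ∀ l, l1 (u l) ≤ t) : l1 (∑ l, ((k l : ℤ) : ZMod Q) • u l) ≤ 3 * (m * t) := by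
  refine (Ke.l1_sum_le _ _).trans ((sum_le_card_nsmul _ _ (m * t) fun l _ => ?_).trans (by simp))
  refine (Ke.l1_int_smul_le _ _).trans (mul_le_mul ?_ (hu l) (Ke.l1_nonneg _) (Nat.cast_nonneg _))
  exact_mod_cast hk l

theorem near {T : ℕ} {c : Fin 3 → ℤ} (hc : ∀ l, |c l| ≤ 3) {y : Fin 3 → V Q n}
    (hy : y ∈ Fintype.piFinset fun _ : Fin 3 => bx Q n T) : Near (∑ l, c l • y l) (9 * T) := by
  have h1 : ∀ l i, ∃ w : ℕ, w < T ∧ (w : ZMod Q) = y l i := fun l i => by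
    obtain ⟨w, hw, e⟩ := mem_image.1
      (Fintype.mem_piFinset.1 (Fintype.mem_piFinset.1 hy l : y l ∈ Fintype.piFinset _) i)
    exact ⟨w, mem_range.1 hw, e⟩
  choose w hw e using h1
  refine ⟨fun i => ∑ l, c l * w l i, fun i => ?_, funext fun i => ?_⟩
  · refine (abs_sum_le_sum_abs _ _).trans
      ((sum_le_card_nsmul _ _ (3 * (T : ℤ)) fun l _ => ?_).trans (le_of_eq (by simp; ring)))
    rw [abs_mul, Nat.abs_cast]
    exact mul_le_mul (hc l) (by exact_mod_cast (hw l i).le) (Nat.cast_nonneg _) (by norm_num)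
  · simp [cs, e]

theorem bx_ne {T : ℕ} (h : 1 ≤ T) : (bx Q n T).Nonempty :=
  Fintype.piFinset_nonempty.2 fun _ => (nonempty_range_iff.2 (by omega)).image _

end Low

open Low in
theorem low1 : LOW1 := by
  intro Q _ n ι _ _ q K φ φ0 Ψ K0 K1 ρ' ρ0 M η δ Tlo Thi S s lam t e c x y h hΨ h0 _ ht he hc
  obtain ⟨w0, w1⟩ := wt_le h x y
  have hS := h.hS
  have hp := (hΨ.pos (q.ev (x + ∑ l, c l • y l))).le
  have hlt := mul_nonneg h0 ht
  have hE : 0 ≤ S ^ 14 * Real.exp (-t / ρ') := by positivity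
  by_cases hs : (∀ l, l1 (lx q x (y l)) ≤ t) ∧
      (∀ l, l1 ((12 : ZMod Q)⁻¹ • q.B (y l) (y l)) ≤ t) ∧ ∀ l, l1 (eg q y l) ≤ t
  · have c9 : ∀ l k, |c l * c k| ≤ 9 := fun l k => by
      rw [abs_mul]
      exact mul_le_mul (hc l) (hc k) (abs_nonneg _) (by norm_num)
    have h1 := l1_le (m := 3) c _ hc hs.1
    have h2 := l1_le (m := 54) (fun l => 6 * c l ^ 2) _ (fun l => by
      have := c9 l l
      rw [abs_mul, sq]
      norm_num at this ⊢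
      omega) hs.2.1
    have h3 := l1_le (m := 9) ![c 0 * c 1, c 0 * c 2, c 1 * c 2] _ (fun l => by
      fin_cases l <;> exact c9 _ _) hs.2.2
    have h4 := ((Ke.l1_add_le _ _).trans (add_le_add (Ke.l1_add_le _ _) le_rfl)).trans
      (add_le_add (add_le_add h1 h2) h3)
    have h5 := (hΨ.lip (q.ev x) _).trans (mul_le_mul_of_nonneg_right
      (Real.exp_le_exp.2 ((mul_le_mul_of_nonneg_left h4 h0).trans (b := _) (c := e)
        (by push_cast; nlinarith))) (hΨ.pos _).le)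
    rw [← ev_eq h.hQ] at h5
    have h6 : (1 - e) * Ψ (q.ev (x + ∑ l, c l • y l)) ≤ Ψ (q.ev x) := by
      refine (mul_le_mul_of_nonneg_right (Real.one_sub_le_exp_neg e) hp).trans
        ((mul_le_mul_of_nonneg_left h5 (Real.exp_pos _).le).trans (le_of_eq ?_))
      rw [← mul_assoc, ← Real.exp_add, neg_add_cancel, Real.exp_zero, one_mul]
    exact (sub_le_self _ hE).trans (mul_le_mul_of_nonneg_right h6 w0)
  · have h1 : wt q K φ φ0 x y ≤ 2 * Real.exp (-t / ρ') * S ^ 9 := w1 _ (by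
      have r := h.r0.trans_le h.r1
      simp only [not_and_or, not_forall, not_le] at hs
      rcases hs with ⟨l, hl⟩ | ⟨l, hl⟩ | ⟨l, hl⟩
      · exact .inl (((prod3 h.k1.ll _).2.2 l).trans (ker_le h.k1 r le_rfl ht hl))
      · exact .inr (.inl (((prod3 h.k0.ll _).2.2 l).trans (ker_le h.k0 h.r0 h.r1 ht hl)))
      · exact .inr (.inr (((prod3 h.k1.ll _).2.2 l).trans (ker_le h.k1 r le_rfl ht hl))))
    have h2 : (1 - e) * Ψ (q.ev (x + ∑ l, c l • y l)) ≤ 1 :=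
      (mul_le_of_le_one_left hp (by linarith)).trans (hΨ.le_one _)
    have h3 : 2 * S ^ 9 ≤ S ^ 14 := by
      have : (2 : ℝ) ≤ S ^ 5 := le_trans (by norm_num) (pow_le_pow_left₀ (by norm_num) hS 5)
      nlinarith [pow_pos (show (0 : ℝ) < S by linarith) 9]
    have h4 := mul_le_of_le_one_left w0 h2
    have h5 := mul_le_mul_of_nonneg_right h3 (Real.exp_pos (-t / ρ')).le
    have h6 := mul_nonneg (hΨ.pos (q.ev x)).le w0
    linarith

open Low in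
theorem low_of (H1 : LOW1) (H2 : LOW2) (H3 : FOL) : LOW := by
  intro Q _ n ι _ _ q K φ φ0 Ψ K0 K1 ρ' ρ0 M η δ Tlo Thi S s lam t e T T1 T2 c f h a1 a2 a3 a4 a5
    hΨ h0 hl ht he he1 hc hf
  have hS := h.hS
  have hS0 : 0 < S := by linarith
  have hlo := h.hlo
  have hX : (bx Q n T).Nonempty := bx_ne (by omega)
  have hY : (Fintype.piFinset fun _ : Fin 3 => bx Q n T1).Nonempty :=
    Fintype.piFinset_nonempty.2 fun _ => bx_ne (by omega)
  have e0 : 0 ≤ e := le_trans (by positivity) he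
  have hU : ∀ z, 0 ≤ Ψ (q.ev z) * f z ∧ Ψ (q.ev z) * f z ≤ S := fun z =>
    ⟨mul_nonneg (hΨ.pos _).le (hf z).1,
      (mul_le_of_le_one_left (hf z).1 (hΨ.le_one _)).trans (hf z).2⟩
  set E := Real.exp (-t / ρ') with hE
  have E0 : 0 < E := Real.exp_pos _
  let g : (Fin 3 → V Q n) → V Q n → ℝ := fun y z =>
    Ψ (q.ev z) * f z * wt q K φ φ0 (z - ∑ l, c l • y l) y
  have B : ∀ y ∈ Fintype.piFinset fun _ : Fin 3 => bx Q n T1,
      (1 - e) * (𝔼 z ∈ bx Q n T, g y z) - (S ^ 16 * ((T1 : ℝ) / T) + S ^ 16 * E) ≤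
        𝔼 x ∈ bx Q n T, Ψ (q.ev x) * (wt q K φ φ0 x y * f (x + ∑ l, c l • y l)) := fun y hy => by
    have b1 := (H3 Q n T (9 * T1) _ (S * S ^ 9) (by omega) (a4.trans h.hhi) (near hc hy)).2 (g y)
      fun z => by
        obtain ⟨w0, w1⟩ := wt_le h (z - ∑ l, c l • y l) y
        rw [abs_of_nonneg (mul_nonneg (hU z).1 w0)]
        exact mul_le_mul (hU z).2 ((w1 1 (.inl (prod3 h.k1.ll _).2.1)).trans (one_mul _).le) w0
          hS0.le
    have b2 : 2 * (n : ℝ) * ((9 * T1 : ℕ) : ℝ) * (S * S ^ 9) / T ≤ S ^ 16 * ((T1 : ℝ) / T) := by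
      have b3 : 18 * (n : ℝ) ≤ S ^ 6 := by
        have : (18 : ℝ) ≤ S ^ 5 := le_trans (by norm_num) (pow_le_pow_left₀ (by norm_num) hS 5)
        rw [pow_succ]
        exact mul_le_mul this h.hn (Nat.cast_nonneg _) (by positivity)
      calc _ = 18 * (n : ℝ) * (S ^ 10 * ((T1 : ℝ) / T)) := by push_cast; ring
        _ ≤ S ^ 6 * (S ^ 10 * ((T1 : ℝ) / T)) := mul_le_mul_of_nonneg_right b3 (by positivity)
        _ = _ := by ring
    have b4 : (1 - e) * (𝔼 x ∈ bx Q n T, g y (x + ∑ l, c l • y l)) - S ^ 16 * E ≤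
        𝔼 x ∈ bx Q n T, Ψ (q.ev x) * (wt q K φ φ0 x y * f (x + ∑ l, c l • y l)) := by
      rw [mul_expect, ← expect_const hX (S ^ 16 * E), ← expect_sub_distrib]
      refine expect_le_expect fun x _ => ?_
      have b5 := mul_le_mul_of_nonneg_right (H1 Q n ι q K φ φ0 Ψ K0 K1 ρ' ρ0 M η δ Tlo Thi S s lam
        t e c x y h hΨ h0 hl ht he hc) (hf (x + ∑ l, c l • y l)).1
      have b6 : S ^ 14 * E * f (x + ∑ l, c l • y l) ≤ S ^ 14 * E * S ^ 2 :=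
        mul_le_mul_of_nonneg_left ((hf _).2.trans (by nlinarith)) (by positivity)
      simp only [g, add_sub_cancel_right]
      nlinarith
    have b7 := (abs_le.1 (b1.trans b2)).1
    have b8 := mul_le_mul_of_nonneg_left b7 (sub_nonneg.2 he1)
    have b9 : 0 ≤ e * (S ^ 16 * ((T1 : ℝ) / T)) := by positivity
    nlinarith
  have A : 𝔼 x ∈ bx Q n T, Ψ (q.ev x) * tri (bx Q n T1) (nv (lx q x) q.B K φ φ0) (ne q.B K φ)
      (fun y => f (x + ∑ l, c l • y l)) = 𝔼 y ∈ Fintype.piFinset fun _ : Fin 3 => bx Q n T1,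
        𝔼 x ∈ bx Q n T, Ψ (q.ev x) * (wt q K φ φ0 x y * f (x + ∑ l, c l • y l)) := by
    rw [expect_comm]
    exact expect_congr rfl fun x _ => mul_expect _ _ _
  have C := expect_le_expect B
  rw [expect_sub_distrib, expect_const hY, ← mul_expect, ← A, expect_comm] at C
  have D := H2 Q n ι q K φ φ0 K0 K1 ρ' ρ0 M η δ Tlo Thi S s T T1 T2 c
    (fun z => S⁻¹ * (Ψ (q.ev z) * f z)) h a1 a2 a3 a4 a5 fun z =>
      ⟨mul_nonneg (by positivity) (hU z).1, by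
        rw [← div_eq_inv_mul]
        exact (div_le_one hS0).2 (hU z).2⟩
  have d0 : 0 ≤ s + (T2 : ℝ) / T1 :=
    nonneg_of_mul_nonneg_right ((abs_nonneg _).trans D) (by positivity)
  have d1 : (𝔼 z ∈ bx Q n T, S⁻¹ * (Ψ (q.ev z) * f z) *
      𝔼 y ∈ Fintype.piFinset (fun _ : Fin 3 => bx Q n T1), wt q K φ φ0 (z - ∑ l, c l • y l) y) =
      S⁻¹ * 𝔼 z ∈ bx Q n T, 𝔼 y ∈ Fintype.piFinset (fun _ : Fin 3 => bx Q n T1), g y z := by
    rw [mul_expect]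
    exact expect_congr rfl fun z _ => by rw [mul_assoc, mul_expect]
  rw [d1, ← mul_expect, ← mul_sub, abs_mul, abs_of_pos (inv_pos.2 hS0), inv_mul_le_iff₀ hS0] at D
  have d2 : S * (S ^ 14 * (s + (T2 : ℝ) / T1)) ≤ S ^ 16 * (s + (T2 : ℝ) / T1) := by
    rw [← mul_assoc]
    exact mul_le_mul_of_nonneg_right ((pow_succ' S 14).symm.le.trans
      (pow_le_pow_right₀ (by linarith) (by norm_num))) d0
  have d3 := mul_le_mul_of_nonneg_left (abs_le.1 (D.trans d2)).1 (sub_nonneg.2 he1)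
  have d4 : 0 ≤ e * (S ^ 16 * (s + (T2 : ℝ) / T1)) := by positivity
  nlinarith

end Vale.Agent.P057Z.Sa
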