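import Vale.Agent.P057Z.Sa.Sk
import Vale.Agent.P057Z.Ke.Pop

/-! Block START: seen from the end point the weight has mean one. -/

set_option linter.all false

open Finset
open scoped BigOperators

namespace Vale.Agent.P057Z.Sa

noncomputable section

namespace Low2

theorem abs_expect_le {α : Type} {s : Finset α} (hs : s.Nonempty) {f : α → ℝ} {b : ℝ}
    (h : ∀ x ∈ s, |f x| ≤ b) : |𝔼 x ∈ s, f x| ≤ b :=
  abs_le.2 ⟨le_expect hs fun x hx => (abs_le.1 (h x hx)).1,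
    expect_le hs fun x hx => (abs_le.1 (h x hx)).2⟩

theorem upd {α : Type} (l : Fin 3) (x y w : α) :
    (![x, y, w] : Fin 3 → α) ∘ Equiv.swap l 2 =
      Function.update ((![x, y, x] : Fin 3 → α) ∘ Equiv.swap l 2) l w := by
  funext k
  fin_cases l <;> fin_cases k <;> rfl

theorem fub (hP : PI) {α β : Type} [DecidableEq α] {s : Finset α} {t : Finset β}
    (hs : s.Nonempty) (l : Fin 3) (H : β → (Fin 3 → α) → ℝ) {b : ℝ}
    (h : ∀ y0 : Fin 3 → α, |𝔼 z ∈ t, 𝔼 w ∈ s, H z (Function.update y0 l w)| ≤ b) :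
    |𝔼 z ∈ t, 𝔼 y ∈ Fintype.piFinset (fun _ : Fin 3 => s), H z y| ≤ b := by
  have e : (𝔼 z ∈ t, 𝔼 y ∈ Fintype.piFinset (fun _ : Fin 3 => s), H z y) =
      𝔼 x ∈ s, 𝔼 y ∈ s, 𝔼 z ∈ t, 𝔼 w ∈ s,
        H z (Function.update ((![x, y, x] : Fin 3 → α) ∘ Equiv.swap l 2) l w) := by
    calc _ = 𝔼 z ∈ t, 𝔼 x ∈ s, 𝔼 y ∈ s, 𝔼 w ∈ s,
          H z (Function.update ((![x, y, x] : Fin 3 → α) ∘ Equiv.swap l 2) l w) := by
          refine expect_congr rfl fun z _ => ?_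
          rw [(hP α s).1 (H z) (Equiv.swap l 2)]
          simp only [← upd]
      _ = 𝔼 x ∈ s, 𝔼 z ∈ t, 𝔼 y ∈ s, 𝔼 w ∈ s,
          H z (Function.update ((![x, y, x] : Fin 3 → α) ∘ Equiv.swap l 2) l w) :=
          expect_comm _ _ _
      _ = _ := expect_congr rfl fun x _ => expect_comm _ _ _
  rw [e]
  exact abs_expect_le hs fun x _ => abs_expect_le hs fun y _ => h _

variable {Q : ℕ} [Fact Q.Prime] {n : ℕ} {ι : Type} [Fintype ι] [DecidableEq ι]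

theorem fa_nonneg {Φ : (ι → ZMod Q) → ℝ} {K0 : ℕ} {M η : ℝ} (h : FA Φ K0 M η) : 0 ≤ M := by
  obtain ⟨c, h1, -⟩ := h
  exact (sum_nonneg fun k _ => norm_nonneg _).trans h1

theorem core (hE : EQ) (hP : PI) {q : Quad Q n ι} {K : Submodule (ZMod Q) (ι → ZMod Q)}
    {φ φ0 : (ι → ZMod Q) → ℝ} {K0 K1 : ℕ} {ρ' ρ0 M η δ : ℝ} {Tlo Thi : ℕ} {S s : ℝ}
    (ok : Ok q K φ φ0 K0 K1 ρ' ρ0 M η δ Tlo Thi S s) {T T1 : ℕ} (h1 : Tlo ≤ T1) (h2 : T1 ≤ T)
    (h3 : T ≤ Thi) {U : V Q n → ℝ} (hU : ∀ z, 0 ≤ U z ∧ U z ≤ 1) (l : Fin 3)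
    {R : (Fin 3 → V Q n) → ℝ} {A : ℝ} (hA : 0 < A) (hR : ∀ y, |R y| ≤ A)
    {b : (Fin 3 → V Q n) → ι → ZMod Q} (hb : ∀ y, b y ∈ perp K)
    {κ : Type} [Fintype κ] [DecidableEq κ] {Φ' : (κ → ZMod Q) → ℝ} {K0' : ℕ} {M' η' : ℝ}
    (hΦ : FA Φ' K0' M' η') (a' : (Fin 3 → V Q n) → V Q n → κ → ZMod Q)
    (ha : ∀ y w, a' (Function.update y l w) = a' y) (b' : (Fin 3 → V Q n) → κ → ZMod Q) :
    |𝔼 z ∈ bx Q n T, 𝔼 y ∈ Fintype.piFinset (fun _ : Fin 3 => bx Q n T1),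
        U z * R y * (φ (q.B z (y l) + b y) - avg K φ 0)| ≤ A * (M * δ + 2 * η) ∧
    |𝔼 z ∈ bx Q n T, 𝔼 y ∈ Fintype.piFinset (fun _ : Fin 3 => bx Q n T1),
        U z * R y * (φ (q.B z (y l) + b y) - avg K φ 0) * Φ' (a' y z + b' y)| ≤
      A * (M' * (M * δ + 2 * η) + 2 * η') := by
  have hne : (bx Q n T1).Nonempty := Ke.bx_nonempty (ok.hlo.trans h1)
  have key : ∀ y0 : Fin 3 → V Q n,
      |𝔼 z ∈ bx Q n T, 𝔼 w ∈ bx Q n T1, U z * (R (Function.update y0 l w) / A) *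
        (φ (q.B z w + b (Function.update y0 l w)) - avg K φ 0)| ≤ M * δ + 2 * η ∧
      |𝔼 z ∈ bx Q n T, 𝔼 w ∈ bx Q n T1, U z * (R (Function.update y0 l w) / A) *
        (φ (q.B z w + b (Function.update y0 l w)) - avg K φ 0) *
          Φ' (a' y0 z + b' (Function.update y0 l w))| ≤ M' * (M * δ + 2 * η) + 2 * η' := by
    intro y0
    have hK := ok.hK
    have := hE Q n ι κ q.B K K0 K0' K1 Tlo Thi T T1 δ M η M' η' 1 1 φ Φ' (fun _ => 0)
      (fun w => b (Function.update y0 l w)) (a' y0) (fun w => b' (Function.update y0 l w)) U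
      (fun w => R (Function.update y0 l w) / A) ok.reg ok.hδ ok.triv.2 (by simp)
      (by simp only [Int.natAbs_one]; omega) ok.hlo (h1.trans h2) h3 h1 (h2.trans h3) ok.k1.fa hΦ
      (fun z => abs_le.2 ⟨by linarith [ok.k1.ll.pos z], ok.k1.ll.le_one z⟩)
      (fun z => abs_le.2 ⟨by linarith [(hU z).1], (hU z).2⟩)
      (fun w => by rw [abs_div, abs_of_pos hA]; exact (div_le_one hA).2 (hR _))
    simp only [one_smul, add_zero, Ke.avg_add φ 0 (hb _), mul_one] at this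
    exact this
  constructor
  · refine fub hP hne l (fun z y => U z * R y * (φ (q.B z (y l) + b y) - avg K φ 0)) fun y0 => ?_
    have e : (𝔼 z ∈ bx Q n T, 𝔼 w ∈ bx Q n T1, U z * R (Function.update y0 l w) *
        (φ (q.B z (Function.update y0 l w l) + b (Function.update y0 l w)) - avg K φ 0)) =
        A * 𝔼 z ∈ bx Q n T, 𝔼 w ∈ bx Q n T1, U z * (R (Function.update y0 l w) / A) *
        (φ (q.B z w + b (Function.update y0 l w)) - avg K φ 0) := by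
      simp only [mul_expect, Function.update_self]
      refine expect_congr rfl fun z _ => expect_congr rfl fun w _ => ?_
      field_simp
    rw [e, abs_mul, abs_of_pos hA]
    exact mul_le_mul_of_nonneg_left (key y0).1 hA.le
  · refine fub hP hne l (fun z y => U z * R y * (φ (q.B z (y l) + b y) - avg K φ 0) *
      Φ' (a' y z + b' y)) fun y0 => ?_
    have e : (𝔼 z ∈ bx Q n T, 𝔼 w ∈ bx Q n T1, U z * R (Function.update y0 l w) *
        (φ (q.B z (Function.update y0 l w l) + b (Function.update y0 l w)) - avg K φ 0) *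
          Φ' (a' (Function.update y0 l w) z + b' (Function.update y0 l w))) =
        A * 𝔼 z ∈ bx Q n T, 𝔼 w ∈ bx Q n T1, U z * (R (Function.update y0 l w) / A) *
        (φ (q.B z w + b (Function.update y0 l w)) - avg K φ 0) *
          Φ' (a' y0 z + b' (Function.update y0 l w)) := by
      simp only [mul_expect, Function.update_self, ha]
      refine expect_congr rfl fun z _ => expect_congr rfl fun w _ => ?_
      field_simp
    rw [e, abs_mul, abs_of_pos hA]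
    exact mul_le_mul_of_nonneg_left (key y0).2 hA.le

theorem quo {S m a : ℝ} (hS : 0 < S) (hm : 1 ≤ S * m) (h0 : 0 ≤ a) (h1 : a ≤ 1) :
    0 ≤ a / m ∧ a / m ≤ S := by
  have hm0 : 0 < m := by
    by_contra h
    have := mul_nonpos_of_nonneg_of_nonpos hS.le (not_lt.1 h)
    linarith
  exact ⟨div_nonneg h0 hm0.le, (div_le_iff₀ hm0).2 (h1.trans hm)⟩

theorem num1 {S M η d s : ℝ} (hS : 10 ≤ S) (hM0 : 0 ≤ M) (hMS : M ≤ S) (hη : 0 ≤ η) (hd : 0 ≤ d)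
    (hs : d + 2 * η ≤ s) : M * M * (d + 2 * η) + 2 * (η * 1 + M * η) ≤ 2 * S ^ 2 * s ∧
    M * (d + 2 * η) + 2 * η ≤ 2 * S * s := by
  have hs0 : 0 ≤ s := by linarith
  have hS0 : 0 ≤ S := by linarith
  have a4 : 10 * s ≤ S * s := by gcongr
  constructor
  · have a1 : M * M * (d + 2 * η) ≤ S * S * s := by gcongr
    have a2 : M * η ≤ S * η := by gcongr
    have a3 : S * (2 * η) ≤ S * s := by gcongr; linarith
    have a5 : 10 * (S * s) ≤ S * (S * s) := by gcongr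
    have e : 2 * S ^ 2 * s = 2 * (S * (S * s)) := by ring
    have e2 : S * S * s = S * (S * s) := by ring
    linarith
  · have a1 : M * (d + 2 * η) ≤ S * s := by gcongr
    linarith

theorem num2 {S s τ : ℝ} (hS : 10 ≤ S) (hs0 : 0 ≤ s) (hτ : 0 ≤ τ) :
    S ^ 3 * (S ^ 6 * (2 * S ^ 2 * s)) + S ^ 2 * (S ^ 6 * (2 * S * s)) + S * (S ^ 6 * s) +
      1 * (7 * (S ^ 4 * (s + τ)) + 3 * S ^ 5 * (S * s)) ≤ S ^ 14 * (s + τ) := by
  have hp : ∀ a b : ℕ, a ≤ b → S ^ a ≤ S ^ b := fun a b h => pow_le_pow_right₀ (by linarith) h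
  have hS0 : 0 ≤ S := by linarith
  have a1 : S ^ 9 * s ≤ S ^ 11 * s := mul_le_mul_of_nonneg_right (hp 9 11 (by norm_num)) hs0
  have a2 : S ^ 7 * s ≤ S ^ 11 * s := mul_le_mul_of_nonneg_right (hp 7 11 (by norm_num)) hs0
  have a3 : S ^ 6 * s ≤ S ^ 11 * s := mul_le_mul_of_nonneg_right (hp 6 11 (by norm_num)) hs0
  have a4 : S ^ 4 * (s + τ) ≤ S ^ 11 * (s + τ) :=
    mul_le_mul_of_nonneg_right (hp 4 11 (by norm_num)) (by linarith)
  have a5 : S ^ 11 * s ≤ S ^ 11 * (s + τ) := by gcongr; linarith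
  have a6 : (10 : ℝ) ^ 3 ≤ S ^ 3 := by gcongr
  have a8 : 0 ≤ S ^ 11 * (s + τ) := by positivity
  have a7 : 10 ^ 3 * (S ^ 11 * (s + τ)) ≤ S ^ 3 * (S ^ 11 * (s + τ)) := by gcongr
  have e1 : S ^ 3 * (S ^ 11 * (s + τ)) = S ^ 14 * (s + τ) := by ring
  have e2 : S ^ 3 * (S ^ 6 * (2 * S ^ 2 * s)) + S ^ 2 * (S ^ 6 * (2 * S * s)) + S * (S ^ 6 * s) +
    1 * (7 * (S ^ 4 * (s + τ)) + 3 * S ^ 5 * (S * s)) =
    2 * (S ^ 11 * s) + 2 * (S ^ 9 * s) + S ^ 7 * s + 7 * (S ^ 4 * (s + τ)) +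
      3 * (S ^ 6 * s) := by ring
  rw [e2, ← e1]
  linarith

end Low2

open Low2 in
theorem low2_of (hE : EQ) (hF : FAP) (hP : PI) (hV : VTX) (hT : TRI) : LOW2 := by
  intro Q _ n ι _ _ q K φ φ0 K0 K1 ρ' ρ0 M η δ Tlo Thi S s T T1 T2 c U ok h1 h2 h3 h4 h5 hU
  obtain ⟨v1, v2, -⟩ := hV Q n ι q K φ φ0 K0 K1 ρ' ρ0 M η δ Tlo Thi S s T T1 T2 ok h1 h2 h3 h4
  have hS := ok.hS
  have hS0 : 0 < S := by linarith
  have hM0 : 0 ≤ M := fa_nonneg ok.k1.fa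
  have hMS := ok.hM
  have hη := ok.hη
  have hδ := ok.hδ
  have hs := ok.hs
  have hMδ : 0 ≤ M * δ := mul_nonneg hM0 hδ
  have hs0 : 0 ≤ s := by linarith
  have hτ : (0 : ℝ) ≤ (T2 : ℝ) / T1 := by positivity
  have hne : (bx Q n T1).Nonempty := Ke.bx_nonempty (ok.hlo.trans (h1.trans h2))
  have hneT : (bx Q n T).Nonempty := Ke.bx_nonempty (ok.hlo.trans (h1.trans (h2.trans h3)))
  have hm := ok.m1
  have hm0 : 0 < avg K φ 0 := (Ke.avg_ll ok.k1.ll).pos 0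
  have hm1 : avg K φ 0 ≤ 1 := (Ke.avg_ll ok.k1.ll).le_one 0
  have hn0 : 0 < avg K φ0 0 := (Ke.avg_ll ok.k0.ll).pos 0
  obtain ⟨ν, hν⟩ : ∃ ν : V Q n → ℝ, ν = fun y => φ0 ((12 : ZMod Q)⁻¹ • q.B y y) / avg K φ0 0 :=
    ⟨_, rfl⟩
  have hνb : ∀ y, 0 ≤ ν y ∧ ν y ≤ S := fun y => by
    rw [hν]
    exact quo hS0 ok.m0 (ok.k0.ll.pos _).le (ok.k0.ll.le_one _)
  have heb : ∀ x y, 0 ≤ ne q.B K φ x y ∧ ne q.B K φ x y ≤ S := fun x y =>
    quo hS0 hm (ok.k1.ll.pos _).le (ok.k1.ll.le_one _)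
  have hp : ∀ a b : ℕ, a ≤ b → S ^ a ≤ S ^ b := fun a b h => pow_le_pow_right₀ (by linarith) h
  have hγ : S ^ 4 * (s + (T2 : ℝ) / T1) ≤ 1 :=
    (mul_le_mul_of_nonneg_right (hp 4 14 (by norm_num)) (by linarith)).trans h5
  have ht := hT (V Q n) (bx Q n T1) ν (ne q.B K φ) S _ _ hne (by linarith) hνb heb v1
    (by rw [hν]; exact v2) hγ
  obtain ⟨R, hR⟩ : ∃ R : (Fin 3 → V Q n) → ℝ, R = fun y => (∏ l, ν (y l)) *
      (ne q.B K φ (y 0) (y 1) * ne q.B K φ (y 0) (y 2) * ne q.B K φ (y 1) (y 2)) := ⟨_, rfl⟩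
  have hRb : ∀ y, |R y| ≤ S ^ 6 := fun y => by
    rw [hR]
    simp only [Fin.prod_univ_three]
    have a0 := hνb (y 0)
    have a1 := hνb (y 1)
    have a2 := hνb (y 2)
    have b0 := heb (y 0) (y 1)
    have b1 := heb (y 0) (y 2)
    have b2 := heb (y 1) (y 2)
    rw [abs_of_nonneg (mul_nonneg (mul_nonneg (mul_nonneg a0.1 a1.1) a2.1)
      (mul_nonneg (mul_nonneg b0.1 b1.1) b2.1))]
    calc _ ≤ S * S * S * (S * S * S) := by
          have := a0.1; have := a1.1; have := a2.1; have := b0.1; have := b1.1; have := b2.1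
          gcongr
          exacts [a0.2, a1.2, a2.2, b0.2, b1.2, b2.2]
      _ = S ^ 6 := by ring
  have hRt : tri (bx Q n T1) ν (ne q.B K φ) (fun _ => 1) =
      𝔼 y ∈ Fintype.piFinset (fun _ : Fin 3 => bx Q n T1), R y := by
    rw [hR]
    simp only [tri, mul_one]
  rw [hRt] at ht
  obtain ⟨b, hb⟩ : ∃ b : Fin 3 → (Fin 3 → V Q n) → ι → ZMod Q,
      b = fun l y => q.l (y l) - q.B (∑ k, c k • y k) (y l) := ⟨_, rfl⟩
  have hbp : ∀ l y, b l y ∈ perp K := fun l y => by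
    rw [hb]
    exact perp_sub (ok.triv.1 _) (ok.triv.2 _ _)
  have hlx : ∀ z y l, lx q (z - ∑ k, c k • y k) (y l) = q.B z (y l) + b l y := fun z y l => by
    rw [hb]
    simp only [lx, map_sub, LinearMap.add_apply, LinearMap.sub_apply]
    abel
  have h6 : 0 < S ^ 6 := by positivity
  have hφ1 : ∀ u, |φ u| ≤ 1 := fun z => abs_le.2 ⟨by linarith [ok.k1.ll.pos z], ok.k1.ll.le_one z⟩
  have t0 := (core hE hP ok (h1.trans h2) h3 h4 hU 0 h6 hRb (hbp 0)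
    (hF Q ι ι φ φ K0 M η M η 1 ok.k1.fa ok.k1.fa hφ1)
    (fun y z => Sum.elim (q.B z (y 1)) (q.B z (y 2)))
    (fun y w => by simp) (fun y => Sum.elim (b 1 y) (b 2 y))).2
  have t1 := (core hE hP ok (h1.trans h2) h3 h4 hU 1 h6 hRb (hbp 1) ok.k1.fa
    (fun y z => q.B z (y 2)) (fun y w => by simp) (b 2)).2
  have t2 := (core hE hP ok (h1.trans h2) h3 h4 hU 2 h6 hRb (hbp 2) ok.k1.fa
    (fun y z => 0) (fun y w => rfl) (b 2)).1
  have es : ∀ a1 a2 b1 b2 : ι → ZMod Q,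
      (Sum.elim a1 a2 + Sum.elim b1 b2) ∘ Sum.inl = a1 + b1 ∧
      (Sum.elim a1 a2 + Sum.elim b1 b2) ∘ Sum.inr = a2 + b2 := fun _ _ _ _ => ⟨rfl, rfl⟩
  simp only [(es _ _ _ _).1, (es _ _ _ _).2] at t0
  generalize hm' : avg K φ 0 = m at *
  have e : (𝔼 z ∈ bx Q n T, U z * 𝔼 y ∈ Fintype.piFinset (fun _ : Fin 3 => bx Q n T1),
        wt q K φ φ0 (z - ∑ l, c l • y l) y) - 𝔼 z ∈ bx Q n T, U z =
      (1 / m) ^ 3 * (𝔼 z ∈ bx Q n T, 𝔼 y ∈ Fintype.piFinset (fun _ : Fin 3 => bx Q n T1),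
        U z * R y * (φ (q.B z (y 0) + b 0 y) - m) *
          (φ (q.B z (y 1) + b 1 y) * φ (q.B z (y 2) + b 2 y))) +
      (1 / m) ^ 2 * (𝔼 z ∈ bx Q n T, 𝔼 y ∈ Fintype.piFinset (fun _ : Fin 3 => bx Q n T1),
        U z * R y * (φ (q.B z (y 1) + b 1 y) - m) * φ (q.B z (y 2) + b 2 y)) +
      (1 / m) * (𝔼 z ∈ bx Q n T, 𝔼 y ∈ Fintype.piFinset (fun _ : Fin 3 => bx Q n T1),
        U z * R y * (φ (q.B z (y 2) + b 2 y) - m)) +
      (𝔼 z ∈ bx Q n T, U z) *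
        ((𝔼 y ∈ Fintype.piFinset (fun _ : Fin 3 => bx Q n T1), R y) - 1) := by
    rw [mul_sub, mul_one, ← add_sub_assoc, sub_left_inj, expect_mul]
    simp only [mul_expect, ← expect_add_distrib]
    refine expect_congr rfl fun z _ => expect_congr rfl fun y _ => ?_
    rw [hR, hν]
    simp only [wt, nv, Fin.prod_univ_three, hlx, hm']
    field_simp
    ring
  rw [e]
  have hU1 : |𝔼 z ∈ bx Q n T, U z| ≤ 1 :=
    abs_expect_le hneT fun z _ => abs_le.2 ⟨by linarith [(hU z).1], (hU z).2⟩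
  obtain ⟨i0, i1⟩ := quo hS0 hm zero_le_one le_rfl
  obtain ⟨u0, u1⟩ := num1 hS hM0 hMS hη hMδ hs
  have w0 := t0.trans (mul_le_mul_of_nonneg_left u0 h6.le)
  have w1 := t1.trans (mul_le_mul_of_nonneg_left u1 h6.le)
  have w2 := t2.trans (mul_le_mul_of_nonneg_left hs h6.le)
  have fin := num2 hS hs0 hτ
  refine le_trans ?_ fin
  refine (abs_add_le _ _).trans (add_le_add ((abs_add_le _ _).trans (add_le_add
    ((abs_add_le _ _).trans (add_le_add ?_ ?_)) ?_)) ?_)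
  · rw [abs_mul, abs_of_nonneg (pow_nonneg i0 3)]
    gcongr
  · rw [abs_mul, abs_of_nonneg (pow_nonneg i0 2)]
    gcongr
  · rw [abs_mul, abs_of_nonneg i0]
    gcongr
  · rw [abs_mul]
    gcongr

end

end Vale.Agent.P057Z.Sa
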