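import Vale.Agent.P057Z.Sa.Sk
import Vale.Agent.P057Z.Ke.Fol

/-!
# P057Z, block Sa: from a regular cell to the grid
-/

open Finset
open scoped BigOperators

namespace Vale.Agent.P057Z.Sa

open Vale.Agent.P057Z Vale.Agent.P057Z.Ke

namespace MainX

section
variable {α : Type} [DecidableEq α] {s : Finset α} {ν : α → ℝ} {e : α → α → ℝ}
  {G : (Fin 3 → α) → ℝ}

theorem tri_eq (hP : PI) (G : (Fin 3 → α) → ℝ) : tri s ν e G =
    𝔼 x ∈ s, 𝔼 y ∈ s, ν x * ν y * e x y * 𝔼 w ∈ s, ν w * e x w * e y w * G ![x, y, w] := by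
  unfold tri
  rw [(hP α s).1 _ 1]
  refine expect_congr rfl fun x _ => expect_congr rfl fun y _ => ?_
  rw [mul_expect]
  refine expect_congr rfl fun w _ => ?_
  simp only [Equiv.Perm.coe_one, Function.comp_id, Fin.prod_univ_three, Matrix.cons_val]
  ring

theorem tri_le (hP : PI) (hs : s.Nonempty) {θ b A : ℝ} (h0 : ∀ x y, 0 ≤ ν x * ν y * e x y)
    (h5 : ∀ x y, ν x * ν y * e x y ≤ A) (hb : 0 ≤ b)
    (h : ∀ x y, 𝔼 w ∈ s, ν w * e x w * e y w * G ![x, y, w] ≤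
      θ * (𝔼 w ∈ s, ν w * e x w * e y w) + b) :
    tri s ν e G ≤ θ * tri s ν e (fun _ => 1) + A * b := by
  rw [tri_eq hP, tri_eq hP, mul_expect, ← expect_const hs (A * b), ← expect_add_distrib]
  refine expect_le_expect fun x _ => ?_
  rw [mul_expect, ← expect_const hs (A * b), ← expect_add_distrib]
  refine expect_le_expect fun y _ => ?_
  simp only [mul_one]
  nlinarith [mul_le_mul_of_nonneg_left (h x y) (h0 x y), mul_le_mul_of_nonneg_right (h5 x y) hb]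

theorem tri_bd (hs : s.Nonempty) {S : ℝ} (hν : ∀ x, 0 ≤ ν x ∧ ν x ≤ S ^ 2)
    (he : ∀ x y, 0 ≤ e x y ∧ e x y ≤ S) (hG : ∀ y, 0 ≤ G y ∧ G y ≤ S) : tri s ν e G ≤ S ^ 10 := by
  refine expect_le (Fintype.piFinset_nonempty.2 fun _ => hs) fun y _ => ?_
  have hS : 0 ≤ S := (hG y).1.trans (hG y).2
  rw [Fin.prod_univ_three, show S ^ 10 = S ^ 2 * S ^ 2 * S ^ 2 * (S * S * S) * S by ring]
  have a0 := hν (y 0); have a1 := hν (y 1); have a2 := hν (y 2)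
  have b0 := he (y 0) (y 1); have b1 := he (y 0) (y 2); have b2 := he (y 1) (y 2)
  have c := hG y
  gcongr <;> first | tauto | (apply_rules [mul_nonneg] <;> tauto)

end

theorem cf_bd (i : Fin 4) (l : Fin 3) : cf i l ≠ 0 ∧ |cf i l| ≤ 3 := by
  revert i l
  decide

variable {Q : ℕ} [Fact Q.Prime] {n : ℕ} {ι : Type} [Fintype ι] [DecidableEq ι]

theorem fi_perm (f : V Q n → ℝ) (x0 : V Q n) (i : Fin 4) (σ : Equiv.Perm (Fin 3))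
    (x y w : V Q n) : fi f x0 i (![x, y, w] ∘ σ) =
      f (x0 + cf i (σ.symm 0) • x + cf i (σ.symm 1) • y + cf i (σ.symm 2) • w) := by
  unfold fi
  rw [← σ.symm.sum_comp, Fin.sum_univ_three]
  simp only [Function.comp_apply, Equiv.apply_symm_apply, Matrix.cons_val, add_assoc]

variable {q : Quad Q n ι} {K : Submodule (ZMod Q) (ι → ZMod Q)} {φ φ0 Ψ : (ι → ZMod Q) → ℝ}
  {K0 K1 : ℕ} {ρ' ρ0 M η δ : ℝ} {Tlo Thi : ℕ} {S s : ℝ}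

theorem quo {a m : ℝ} (hS : 10 ≤ S) (h0 : 0 < a) (h1 : a ≤ 1) (hm : 1 ≤ S * m) :
    0 ≤ a / m ∧ a / m ≤ S := by
  have h : 0 < m := by
    by_contra h
    nlinarith
  exact ⟨by positivity, (div_le_iff₀ h).2 (h1.trans hm)⟩

theorem ne_bd (ok : Ok q K φ φ0 K0 K1 ρ' ρ0 M η δ Tlo Thi S s) (x y : V Q n) :
    0 ≤ ne q.B K φ x y ∧ ne q.B K φ x y ≤ S :=
  quo ok.hS (ok.k1.ll.pos _) (ok.k1.ll.le_one _) ok.m1

theorem nv_bd (ok : Ok q K φ φ0 K0 K1 ρ' ρ0 M η δ Tlo Thi S s) (x y : V Q n) :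
    0 ≤ nv (lx q x) q.B K φ φ0 y ∧ nv (lx q x) q.B K φ φ0 y ≤ S ^ 2 := by
  have h1 := quo ok.hS (ok.k1.ll.pos (lx q x y)) (ok.k1.ll.le_one _) ok.m1
  have h2 := quo ok.hS (ok.k0.ll.pos ((12 : ZMod Q)⁻¹ • q.B y y)) (ok.k0.ll.le_one _) ok.m0
  unfold nv
  rw [mul_div_mul_comm, sq]
  exact ⟨mul_nonneg h1.1 h2.1, mul_le_mul h1.2 h2.2 h2.1 (h1.1.trans h1.2)⟩

theorem pw {S ε : ℝ} (hS : 10 ≤ S) (hε : 0 ≤ ε) {j : ℕ} (hj : j ≤ 28) : S ^ j * ε ≤ S ^ 28 * ε :=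
  mul_le_mul_of_nonneg_right (pow_le_pow_right₀ (by linarith) hj) hε

theorem sm {S ε r : ℝ} (hS : 10 ≤ S) (hε : 0 ≤ ε) (hr : r ≤ ε) {j : ℕ} (hj : j ≤ 27) :
    S ^ j * (3 * S * ε + r) ≤ 4 * (S ^ 28 * ε) := by
  have s1 : 3 * S * ε + r ≤ 4 * (S * ε) := by nlinarith
  have a1 := mul_le_mul_of_nonneg_left s1 (pow_nonneg (by linarith : 0 ≤ S) j)
  have a2 := pw hS hε (Nat.succ_le_succ hj)
  rw [pow_succ] at a2
  linarith

theorem cube {γ e : ℝ} (g0 : 0 < γ) (g1 : 100 * γ ≤ e) (e1 : e ≤ 1 / 100) :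
    γ ≤ 1 ∧ γ ^ 2 ≤ γ ∧ γ ^ 3 ≤ γ ^ 2 := by
  have g3 : γ ≤ 1 := by linarith
  exact ⟨g3, by nlinarith, by nlinarith⟩

theorem num_lo {S ε r r' x γ e κ w F β : ℝ} (hS : 10 ≤ S) (hε : 0 ≤ ε) (hr : r ≤ ε) (hr' : r' ≤ ε)
    (hx : x ≤ ε) (g0 : 0 < γ) (g1 : 100 * γ ≤ e) (e1 : e ≤ 1 / 100)
    (g2 : 100 * (S ^ 28 * ε) ≤ γ ^ 3) (k1 : γ ≤ κ) (w1 : κ + w ≤ F) (hβ : β ≤ γ ^ 2 / 25) :
    (1 - e) * w + β ≤ (1 - e) * F - S ^ 16 * (3 * S * ε + r + r' + x) := by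
  obtain ⟨-, g4, g5⟩ := cube g0 g1 e1
  have a2 := sm hS hε hr (show 16 ≤ 27 by norm_num)
  have a3 := pw hS hε (show 16 ≤ 28 by norm_num)
  have a4 := mul_le_mul_of_nonneg_left (add_le_add hr' hx) (by positivity : 0 ≤ S ^ 16)
  have a5 := mul_le_mul_of_nonneg_left w1 (by linarith : 0 ≤ 1 - e)
  have a6 : γ / 2 ≤ (1 - e) * κ := by nlinarith
  linarith

theorem num_up {S ε γ e b u v : ℝ} (hS : 10 ≤ S) (hε : 0 ≤ ε) (g0 : 0 < γ) (g1 : 100 * γ ≤ e)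
    (e1 : e ≤ 1 / 100) (g2 : 100 * (S ^ 28 * ε) ≤ γ ^ 3) (b1 : S ^ 5 * b ≤ 2 / 3 * e)
    (a1 : u ≤ (1 + e) * v + S ^ 5 * b) (a2 : v - 1 ≤ 7 * γ + 3 * (S ^ 2) ^ 5 * (S * (3 * S * ε))) :
    u ≤ 1 + 2 * e := by
  obtain ⟨-, g4, g5⟩ := cube g0 g1 e1
  have a3 := pw hS hε (show 12 ≤ 28 by norm_num)
  have a4 : v ≤ 1 + e / 10 := by linarith
  nlinarith [mul_le_mul_of_nonneg_left a4 (by linarith : 0 ≤ 1 + e)]

theorem num_w {γ κ w F A : ℝ} (g0 : 0 < γ) (w0 : 0 < w) (k1 : γ ≤ κ) (w1 : κ + w ≤ F)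
    (a1 : F ≤ w * A) (hA : γ * A ≤ 1) : γ ^ 2 ≤ w := by
  nlinarith [mul_le_mul_of_nonneg_left (show γ ≤ w * A by linarith) g0.le,
    mul_le_mul_of_nonneg_left hA w0.le]

open Classical in
theorem markov {α : Type} (s : Finset α) (g : α → ℝ) {γ B : ℝ} (g0 : 0 < γ)
    (h : 𝔼 x ∈ s, |g x| ≤ B) : (𝔼 x ∈ s, if |g x| ≤ γ then (0 : ℝ) else 1) ≤ B / γ := by
  refine le_trans ?_ (div_le_div_of_nonneg_right h g0.le)
  rw [expect_div]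
  refine expect_le_expect fun x _ => ?_
  split_ifs with h
  · positivity
  · exact (one_le_div g0).2 (not_le.1 h).le

/-- the choice of the base point -/
theorem core (hV : VTX) (hT : TRI) (hP : PI) (hL : LOW) (hK : PICK) {T T1 T2 : ℕ}
    {f : V Q n → ℝ} {ε γ e lam t κ A b : ℝ}
    (ok : Ok q K φ φ0 K0 K1 ρ' ρ0 M η δ Tlo T S (3 * S * ε)) (t1 : Tlo ≤ T2) (t2 : T2 ≤ T1)
    (t3 : T1 ≤ T) (r1 : (T2 : ℝ) / T1 ≤ ε) (r2 : (T1 : ℝ) / T ≤ ε) (hΨ : LL lam Ψ) (l0 : 0 ≤ lam)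
    (l1 : lam ≤ S) (h0 : 0 ≤ t) (h1 : 500 * lam * t ≤ e) (h2 : Real.exp (-t / ρ') ≤ ε)
    (e1 : e ≤ 1 / 100) (hf : ∀ x, 0 ≤ f x ∧ f x ≤ A) (hA : A ≤ S) (hA' : γ * A ≤ 1) (k1 : γ ≤ κ)
    (k2 : κ ≤ 𝔼 x ∈ bx Q n T, Ψ (q.ev x) * (f x - 1)) (g0 : 0 < γ) (g1 : 100 * γ ≤ e)
    (g2 : 100 * (S ^ 28 * ε) ≤ γ ^ 3) (b0 : 0 ≤ b) (b1 : S ^ 5 * b ≤ 2 / 3 * e)
    (hsl : ∀ (x0 x y z : V Q n) (c : ℤ), c ≠ 0 → |c| ≤ 3 →
      𝔼 w ∈ bx Q n T1, nv (lx q x0) q.B K φ φ0 w * ne q.B K φ x w * ne q.B K φ y w *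
        f (z + c • w) ≤ (1 + e) *
          (𝔼 w ∈ bx Q n T1, nv (lx q x0) q.B K φ φ0 w * ne q.B K φ x w * ne q.B K φ y w) + b) :
    ∃ x0, |(𝔼 y ∈ bx Q n T1, nv (lx q x0) q.B K φ φ0 y) - 1| ≤ γ ∧
      ∀ i, 1 - 22 * e ≤ tri (bx Q n T1) (nv (lx q x0) q.B K φ φ0) (ne q.B K φ) (fi f x0 i) := by
  have hS := ok.hS
  have hS0 : 0 ≤ S := le_trans (by norm_num) hS
  have hS1 : 1 ≤ S := le_trans (by norm_num) hS
  have hε : 0 ≤ ε := (Real.exp_pos _).le.trans h2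
  have n1 : (bx Q n T1).Nonempty := bx_nonempty (ok.hlo.trans (t1.trans t2))
  have n0 : (bx Q n T).Nonempty := bx_nonempty (ok.hlo.trans (t1.trans (t2.trans t3)))
  obtain ⟨g3, g4, g5⟩ := cube g0 g1 e1
  have hfS : ∀ x, 0 ≤ f x ∧ f x ≤ S := fun x => ⟨(hf x).1, (hf x).2.trans hA⟩
  have β1 : S ^ 5 * (3 * S * ε + (T2 : ℝ) / T1) / γ * S ^ 10 ≤ γ ^ 2 / 25 := by
    rw [div_mul_eq_mul_div, div_le_iff₀ g0]
    linarith only [sm hS hε r1 (show 15 ≤ 27 by norm_num), g2]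
  have β2 : S ^ 5 * (3 * S * ε + (T2 : ℝ) / T1) / γ ≤ γ ^ 2 / 25 := by
    rw [div_le_iff₀ g0]
    linarith only [sm hS hε r1 (show 5 ≤ 27 by norm_num), g2]
  obtain ⟨v1, -, v3⟩ := hV Q n ι q K φ φ0 K0 K1 ρ' ρ0 M η δ Tlo T S _ T T1 T2 ok t1 t2 t3 le_rfl
  have w1 : κ + 𝔼 x ∈ bx Q n T, Ψ (q.ev x) ≤ 𝔼 x ∈ bx Q n T, Ψ (q.ev x) * f x := by
    simp only [mul_sub, mul_one, expect_sub_distrib] at k2
    exact le_sub_iff_add_le.1 k2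
  have w0 : 0 < 𝔼 x ∈ bx Q n T, Ψ (q.ev x) := expect_pos (fun x _ => hΨ.pos _) n0
  have w2 : γ ^ 2 ≤ 𝔼 x ∈ bx Q n T, Ψ (q.ev x) := num_w g0 w0 k1 w1 (by
    rw [expect_mul]
    exact expect_le_expect fun x _ => mul_le_mul_of_nonneg_left (hf x).2 (hΨ.pos _).le) hA'
  obtain ⟨x0, -, h3, h4⟩ := hK _ (bx Q n T) (fun x => Ψ (q.ev x))
    (fun i x => tri (bx Q n T1) (nv (lx q x) q.B K φ φ0) (ne q.B K φ) (fi f x i))
    (fun x => |(𝔼 y ∈ bx Q n T1, nv (lx q x) q.B K φ φ0 y) - 1| ≤ γ) e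
    (S ^ 5 * (3 * S * ε + (T2 : ℝ) / T1) / γ) (S ^ 10) n0
    (fun x => ⟨(hΨ.pos _).le, hΨ.le_one _⟩)
    (fun i x => tri_bd n1 (nv_bd ok x) (ne_bd ok) fun y => hfS _) (pow_nonneg hS0 _)
    (by linarith only [g0, g1]) (markov _ _ g0 v3) w0 (by linarith only [β2, w2, w0])
    (fun i => (num_lo hS hε r1 r2 h2 g0 g1 e1 g2 k1 w1 β1).trans
      (hL Q n ι q K φ φ0 Ψ K0 K1 ρ' ρ0 M η δ Tlo T S _ lam t e T T1 T2 (cf i) f ok t1 t2 t3 le_rfl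
        (by linarith only [sm hS hε r1 (show 14 ≤ 27 by norm_num), g2, g3, g4, g5]) hΨ l0 l1 h0 h1
        (e1.trans (by norm_num)) (fun l => (cf_bd i l).2) hfS))
    fun i x hx => num_up hS hε g0 g1 e1 g2 b1 (tri_le hP n1
      (fun y z => mul_nonneg (mul_nonneg (nv_bd ok x y).1 (nv_bd ok x z).1) (ne_bd ok y z).1)
      (fun y z => by
        rw [show S ^ 5 = S ^ 2 * S ^ 2 * S by ring]
        exact mul_le_mul (mul_le_mul (nv_bd ok x y).2 (nv_bd ok x z).2 (nv_bd ok x z).1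
          (by positivity)) (ne_bd ok y z).2 (ne_bd ok y z).1 (by positivity)) b0
      fun y z => (expect_congr rfl fun w _ => congrArg _ (fi_perm f x i 1 y z w)).trans_le
        (hsl x y z _ _ (cf_bd i _).1 (cf_bd i _).2))
      (abs_le.1 (hT _ _ _ _ (S ^ 2) γ _ n1 (one_le_pow₀ hS1) (nv_bd ok x)
        (fun y z => ⟨(ne_bd ok y z).1, (ne_bd ok y z).2.trans (le_self_pow₀ hS1 two_ne_zero)⟩)
        v1 hx g3)).2
  exact ⟨x0, h3, h4⟩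

theorem small {y e : ℝ} (e0 : 0 < e) (h : 500 ≤ e * y) : 100 * Real.exp (-y) ≤ e := by
  have hy : 0 < y := by
    by_contra k
    nlinarith
  have h1 := mul_le_mul_of_nonneg_left (Real.add_one_le_exp y) (Real.exp_pos (-y)).le
  rw [← Real.exp_add, neg_add_cancel, Real.exp_zero] at h1
  exact le_of_mul_le_mul_right (by nlinarith [Real.exp_pos (-y)]) hy

theorem nums {CH C : ℕ} {e X Y Z : ℝ} (e0 : 0 < e) (e1 : e ≤ 1 / 100)
    (hC : C = 3 * CH + 4 + ⌈500 / e⌉₊) (h : Par C X Y Z) : ∃ ε γ : ℝ,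
    (10 ≤ Y ∧ (CH : ℝ) ≤ X ∧ X ≤ 8 * Y ^ 2 ∧ (8 * Y ^ 2) ^ CH ≤ Real.exp X ∧ X ^ CH ≤ X ^ C) ∧
    (Z ≤ Real.exp Y ∧ 12 * Y ≤ Y ^ C ∧ 20 ≤ Z ^ C ∧ Real.exp (-Z ^ C) ≤ ε ∧
      Real.exp (-(e * Z ^ C / 500)) ≤ ε) ∧
    (0 < γ ∧ γ ≤ Real.exp (-Z) ∧ γ ≤ Real.exp (-(8 * Y ^ 2) ^ CH) ∧ 100 * γ ≤ e ∧
      100 * (Real.exp (4 * Y ^ 2) ^ 28 * ε) ≤ γ ^ 3) ∧
    2 * (Real.exp (4 * Y ^ 2) ^ 9 * Real.exp (-Y ^ C)) ≤ e ∧
    2 * (Real.exp (4 * Y ^ 2) ^ 9 * Real.exp (-Y ^ C)) ≤ Real.exp (-(8 * Y ^ 2) ^ CH) := by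
  obtain ⟨h1, h2, h3, h4⟩ := h
  obtain ⟨D, hD⟩ : ∃ D, D = 3 * CH + 2 := ⟨_, rfl⟩
  have c0 : (0 : ℝ) ≤ CH := Nat.cast_nonneg _
  have c1 : 3 * (CH : ℝ) + 4 + 500 / e ≤ X := by
    refine le_trans ?_ h1
    rw [hC]
    push_cast
    linarith [Nat.le_ceil (500 / e)]
  have c2 : 50000 ≤ 500 / e := by
    rw [le_div_iff₀ e0]
    linarith
  have c3 : 500 ≤ e * X := by
    rw [mul_comm, ← div_le_iff₀ e0]
    linarith
  have x1 : 50000 ≤ X := by linarith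
  have c4 : 500 ≤ e * Y := c3.trans (mul_le_mul_of_nonneg_left h2 e0.le)
  have c5 : 500 ≤ e * Z := c4.trans (mul_le_mul_of_nonneg_left h3 e0.le)
  have y1 : 1 ≤ Y := by linarith
  have z1 : 1 ≤ Z := by linarith
  have py : ∀ {a b : ℕ}, a ≤ b → Y ^ a ≤ Y ^ b := fun h => pow_le_pow_right₀ y1 h
  have pz : ∀ {a b : ℕ}, a ≤ b → Z ^ a ≤ Z ^ b := fun h => pow_le_pow_right₀ z1 h
  have yz : Y ^ D ≤ Z ^ D := pow_le_pow_left₀ (by linarith) h3 D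
  have d1 : (8 * Y ^ 2) ^ CH ≤ Y ^ D := by
    refine le_trans (pow_le_pow_left₀ (by positivity) (show 8 * Y ^ 2 ≤ Y ^ 3 by nlinarith) CH) ?_
    rw [← pow_mul]
    exact py (by omega)
  have d2 : Y ≤ Y ^ 2 := le_self_pow₀ y1 two_ne_zero
  have d3 : Y ^ 2 ≤ Y ^ D := py (by omega)
  have d4 : Z ≤ Z ^ D := le_self_pow₀ z1 (by omega)
  have d5 : Z ≤ Z ^ C := le_self_pow₀ z1 (by omega)
  have d6 : 50000 * Y ^ D ≤ Y ^ C := by
    refine le_trans ?_ (py (show D + 1 ≤ C by omega))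
    rw [pow_succ']
    exact mul_le_mul_of_nonneg_right (by linarith) (by positivity)
  have d7 : 50000 * Z ^ D ≤ Z ^ (D + 1) := by
    rw [pow_succ']
    exact mul_le_mul_of_nonneg_right (by linarith) (by positivity)
  have d8 : Z ^ (D + 1) ≤ e * Z ^ C / 500 := by
    have a1 := mul_le_mul_of_nonneg_left (pz (show D + 1 + 1 ≤ C by omega)) e0.le
    have a2 := mul_le_mul_of_nonneg_right c5 (by positivity : 0 ≤ Z ^ (D + 1))
    rw [pow_succ' Z (D + 1)] at a1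
    linarith
  have d9 : 2 * (Real.exp (4 * Y ^ 2) ^ 9 * Real.exp (-Y ^ C)) ≤ Real.exp (-Y ^ D) := by
    refine (mul_le_mul_of_nonneg_right (show 2 ≤ Real.exp 1 by linarith [Real.add_one_le_exp 1])
      (by positivity)).trans ?_
    rw [← Real.exp_nat_mul, ← Real.exp_add, ← Real.exp_add, Real.exp_le_exp]
    push_cast
    linarith
  have g1 : Real.exp (-Z ^ D) ≤ Real.exp (-Z) := Real.exp_le_exp.2 (by linarith)
  refine ⟨Real.exp (-Z ^ (D + 1)), Real.exp (-Z ^ D), ⟨by linarith, by linarith, by linarith,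
    d1.trans (yz.trans ((pz (by omega)).trans h4)), pow_le_pow_right₀ (by linarith) (by omega)⟩,
    ⟨d5.trans (h4.trans (Real.exp_le_exp.2 h2)), by linarith, by linarith,
      Real.exp_le_exp.2 (neg_le_neg (pz (by omega))), Real.exp_le_exp.2 (neg_le_neg d8)⟩,
    ⟨Real.exp_pos _, g1, Real.exp_le_exp.2 (by linarith), by linarith [small e0 c5], ?_⟩,
    d9.trans ?_, d9.trans (Real.exp_le_exp.2 (by linarith))⟩
  · refine (mul_le_mul_of_nonneg_right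
      (show 100 ≤ Real.exp 99 by linarith [Real.add_one_le_exp 99]) (by positivity)).trans ?_
    rw [← Real.exp_nat_mul, ← Real.exp_nat_mul, ← Real.exp_add, ← Real.exp_add, Real.exp_le_exp]
    push_cast
    linarith
  · linarith [small e0 c4, Real.exp_pos (-Y),
      show Real.exp (-Y ^ D) ≤ Real.exp (-Y) from Real.exp_le_exp.2 (by linarith)]

theorem ratio {W : ℕ} {ε : ℝ} (hε : 0 ≤ ε) (hW : 1 / (W : ℝ) ≤ ε) (a : ℕ) :
    ((a / W : ℕ) : ℝ) / a ≤ ε := by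
  refine div_le_of_le_mul₀ (Nat.cast_nonneg a) hε (Nat.cast_div_le.trans ?_)
  rw [div_eq_mul_one_div, mul_comm]
  exact mul_le_mul_of_nonneg_right hW (Nat.cast_nonneg a)

theorem sides {W T : ℕ} {L : ℝ} (hL : 20 ≤ L) (h1 : Real.exp L ≤ W)
    (h2 : L * Real.log W ≤ Real.log T) :
    21 ≤ W ∧ W ^ 20 ≤ T ∧ 4 * Real.log W ≤ L * Real.log W ∧ 1 / (W : ℝ) ≤ Real.exp (-L) := by
  have a1 : (21 : ℝ) ≤ W := by linarith [Real.add_one_le_exp L]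
  have a2 : 0 < Real.log W := Real.log_pos (by linarith)
  have a3 : 20 * Real.log W ≤ Real.log T := (mul_le_mul_of_nonneg_right hL a2.le).trans h2
  have a4 : (0 : ℝ) < T := Nat.cast_pos.2 (Nat.pos_of_ne_zero fun h => by
    rw [h, Nat.cast_zero, Real.log_zero] at a3
    linarith)
  refine ⟨by exact_mod_cast a1, ?_, mul_le_mul_of_nonneg_right (by linarith) a2.le, ?_⟩
  · have a5 : (W : ℝ) ^ 20 ≤ T := (Real.log_le_log_iff (by positivity) a4).1 (by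
      rw [Real.log_pow]
      exact_mod_cast a3)
    exact_mod_cast a5
  · rw [Real.exp_neg, one_div]
    exact inv_anti₀ (Real.exp_pos L) h1

theorem num_b {S ε γ e d k W : ℝ} (hS : 10 ≤ S) (hε : 0 ≤ ε) (g0 : 0 < γ) (g1 : 100 * γ ≤ e)
    (e1 : e ≤ 1 / 100) (g2 : 100 * (S ^ 28 * ε) ≤ γ ^ 3) (hd : γ ≤ d) (k0 : 0 ≤ k)
    (k1 : 2 * (S ^ 9 * k) ≤ e) (k2 : 2 * (S ^ 9 * k) ≤ d) (w0 : 0 < W) (hW : 1 / W ≤ ε) :
    S ^ 5 * (S ^ 4 * k + S ^ 12 / W) ≤ 2 / 3 * e ∧ S ^ 4 * k + S ^ 12 / W ≤ d ∧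
      S * (3 * S * ε) ≤ d ∧ S ^ 4 ≤ W ∧ (S ^ 2) ^ 14 / W ≤ e := by
  obtain ⟨g3, g4, g5⟩ := cube g0 g1 e1
  have a0 : ∀ j, j ≤ 28 → S ^ j / W ≤ S ^ 28 * ε := fun j hj => by
    rw [div_eq_mul_one_div]
    exact (mul_le_mul_of_nonneg_left hW (by positivity)).trans (pw hS hε hj)
  have a1 := a0 17 (by norm_num)
  have a2 := a0 12 (by norm_num)
  have a3 := a0 4 (by norm_num)
  have a4 := a0 28 le_rfl
  have a5 := pw hS hε (show 2 ≤ 28 by norm_num)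
  have a6 : S ^ 4 * k ≤ S ^ 9 * k :=
    mul_le_mul_of_nonneg_right (pow_le_pow_right₀ (by linarith) (by norm_num)) k0
  refine ⟨?_, by linarith, by linarith, (div_le_one w0).1 (by linarith), ?_⟩
  · rw [show S ^ 5 * (S ^ 4 * k + S ^ 12 / W) = S ^ 9 * k + S ^ 17 / W by ring]
    linarith
  · rw [← pow_mul]
    linarith

end MainX

open MainX

theorem start_of (hKer : KER) (hV : VTX) (hT : TRI) (hP : PI) (hSl : SLICE) (hL : LOW) (hK : PICK)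
    (hCnt : CNT) (hH : HGE) : START := by
  obtain ⟨e1, p1, p2, eH, p3, -, CH, hH⟩ := hH
  obtain ⟨e, e0, e1', e2⟩ : ∃ e : ℝ, 0 < e ∧ e ≤ 1 / 100 ∧ 30 * e ≤ eH :=
    ⟨min (eH / 30) (1 / 100), by positivity, min_le_right _ _, by
      linarith [min_le_left (eH / 30) (1 / 100)]⟩
  obtain ⟨C, hC⟩ : ∃ C, C = 3 * CH + 4 + ⌈500 / e⌉₊ := ⟨_, rfl⟩
  refine ⟨e1, p1, p2, e, e0, e1', C, ?_⟩
  intro X Y Z Q _ n J T W K0 K1 ι _ _ f lam κ δ ρ' ρ0 M η q Ψ φ φ0 K hPar hn hJ _ hJn hc hW hT' hQ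
    hf hfree hlam hΨ hκ hκ' htriv hδ0 hδ hreg hK01 hρ0 hρ hρ' hM hη k1 k0 hinc
  obtain ⟨ε, γ, ⟨y1, y2, y3, y4, y5⟩, ⟨z1, z2, z3, z4, z5⟩, ⟨g0, g1, g2, g3, g4⟩, g5, g6⟩ :=
    nums e0 e1' hC hPar
  obtain ⟨w1, w2, w3, w4⟩ := sides z3 hW hT'
  obtain ⟨-, hXY, hYZ, -⟩ := hPar
  have hS2 : Real.exp (8 * Y ^ 2) = Real.exp (4 * Y ^ 2) ^ 2 := by
    rw [← Real.exp_nat_mul]
    congr 1
    ring
  have hS3 : 1 ≤ Real.exp (4 * Y ^ 2) * Real.exp (-(3 * Y ^ 2)) := by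
    rw [← Real.exp_add]
    exact Real.one_le_exp (by nlinarith only [y1])
  have hYS : Real.exp Y ≤ Real.exp (4 * Y ^ 2) := Real.exp_le_exp.2 (by nlinarith only [y1])
  generalize Real.exp (4 * Y ^ 2) = S at hS2 hS3 hYS g4 g5 g6
  have hY : Y + 1 ≤ Real.exp Y := Real.add_one_le_exp Y
  have hS : 10 ≤ S := by linarith only [y1, hY, hYS]
  have hS0 : 0 ≤ S := le_trans (by norm_num) hS
  have hSS : S ≤ S ^ 2 := le_self_pow₀ (le_trans (by norm_num) hS) two_ne_zero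
  have hXS : Real.exp X ≤ S := (Real.exp_le_exp.2 hXY).trans hYS
  have hε : 0 ≤ ε := (Real.exp_pos _).le.trans z4
  have r0 : 0 < ρ0 := (Real.exp_pos _).trans_le hρ0
  have r1 : 0 < ρ' := r0.trans_le hρ
  have r2 : lam * ρ' ≤ 1 := by nlinarith only [hρ', z3, mul_pos (zero_lt_one.trans_le hlam) r1]
  have r3 : ρ' ≤ 1 := by nlinarith only [r2, hlam, r1]
  have r4 : 1 ≤ Real.exp Y * ρ' := by
    rw [← mul_inv_cancel₀ (Real.exp_pos Y).ne', ← Real.exp_neg]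
    exact mul_le_mul_of_nonneg_left (hρ0.trans hρ) (Real.exp_pos _).le
  have r5 : lam ≤ Real.exp Y := le_of_mul_le_mul_right (r2.trans r4) r1
  have W0 : 0 < W := by omega
  have W1 : ∀ {a b : ℕ}, a ≤ b → W ^ a ≤ W ^ b := fun h => Nat.pow_le_pow_right W0 h
  have T1 : W ≤ T / W := (Nat.le_div_iff_mul_le W0).2 (le_trans (by
    rw [← sq]; exact W1 (by norm_num)) w2)
  have T2 : 21 ≤ T := w1.trans (T1.trans (Nat.div_le_self _ _))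
  have T3 : T < Q := lt_of_lt_of_le (by nlinarith only [T2]) hQ
  have hη0 : 0 ≤ η := let ⟨_, _, h⟩ := k1.fa; (norm_nonneg _).trans (h 0)
  have hJ1 : (1 : ℝ) ≤ J := by exact_mod_cast hJ
  have hR : (12 * J * Fintype.card ι : ℝ) ≤ J * Y ^ C := by
    rw [mul_comm 12, mul_assoc]
    exact mul_le_mul_of_nonneg_left (by linarith only [hc, z2]) (Nat.cast_nonneg J)
  have hn1 : (1 : ℝ) ≤ n := by nlinarith only [hJ1, hJn, z2, y1]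
  have ok : Ok q K φ φ0 K0 K1 ρ' ρ0 M η δ (T / W ^ 20) T S (3 * S * ε) :=
    ⟨htriv, hreg, hK01, k1, k0, hδ0, Nat.div_pos w2 (pow_pos W0 _), T3.le, by omega, hS,
      hS3.trans (mul_le_mul_of_nonneg_left
        (hKer Q ι K φ K0 ρ' M η Y k1 y1 hc (hρ0.trans hρ) r3).1 hS0),
      hS3.trans (mul_le_mul_of_nonneg_left
        (hKer Q ι K φ0 K0 ρ0 M η Y k0 y1 hc hρ0 (hρ.trans r3)).1 hS0), hM.trans hYS,
      hn.trans (z1.trans hYS), by linarith only [hc, hY, hYS], r0, hρ,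
      r4.trans (mul_le_mul_of_nonneg_right hYS r1.le), by
        nlinarith only [mul_le_mul (hM.trans hYS) (hδ.trans z4) hδ0 hS0, hη.trans z4, hS, hε], hη0⟩
  have W2 : (0 : ℝ) < W := Nat.cast_pos.2 W0
  obtain ⟨b1, b2, b3, b4, b5⟩ :=
    num_b hS hε g0 g3 e1' g4 g2 (Real.exp_pos _).le g5 g6 W2 (w4.trans z4)
  have hfS : ∀ x, 0 ≤ f x ∧ f x ≤ S := fun x => ⟨(hf x).1, (hf x).2.trans hXS⟩
  have hsl := fun (x0 x y z : V Q n) (c : ℤ) (c0 : c ≠ 0) (c1 : |c| ≤ 3) =>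
    hSl Q n ι q K φ φ0 K0 K1 ρ' ρ0 M η δ _ T S _ T W J f (1 + e) _ _ _ x0 x y z c ok hJ
      (by exact_mod_cast hR.trans hJn) hR b4 ((W1 (by norm_num)).trans w2) T3 w3 hfS
      (by linarith only [e0]) (by linarith only [e1']) (Real.exp_pos _).le c0 c1 hinc
  have t1 : T / W ^ 20 ≤ T / W / W := by
    rw [Nat.div_div_eq_div_mul, ← sq]
    exact Nat.div_le_div_left (W1 (by norm_num)) (pow_pos W0 _)
  have l0 : 0 < lam := zero_lt_one.trans_le hlam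
  obtain ⟨x0, h1, h2⟩ := core hV hT hP hL hK (t := e / (500 * lam)) ok t1 (Nat.div_le_self _ _)
    (Nat.div_le_self _ _) (ratio hε (w4.trans z4) _) (ratio hε (w4.trans z4) _) hΨ l0.le
    (r5.trans hYS) (by positivity) (le_of_eq (mul_div_cancel₀ _ (by positivity)))
    (le_trans (Real.exp_le_exp.2 (by
      rw [neg_div, neg_le_neg_iff, le_div_iff₀ r1, le_div_iff₀ (by positivity)]
      linarith only [mul_le_mul_of_nonneg_left hρ' e0.le])) z5) e1' hf hXS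
    ((mul_le_mul_of_nonneg_right g1 (Real.exp_pos _).le).trans (by
      rw [← Real.exp_add]
      exact Real.exp_le_one_iff.2 (by linarith only [hXY, hYZ]))) (g1.trans hκ) hκ' g0 g3 g4
    (by positivity) b1 hsl
  have he2 : ∀ x y, 0 ≤ ne q.B K φ x y ∧ ne q.B K φ x y ≤ S ^ 2 := fun x y =>
    ⟨(ne_bd ok x y).1, (ne_bd ok x y).2.trans hSS⟩
  obtain ⟨i, σ, p, N, o1, o2, o3, o4, o5, o6⟩ := hH X (8 * Y ^ 2) _ Q n (T / W)
    (nv (lx q x0) q.B K φ φ0) (ne q.B K φ) (fi f x0) y2 y3 y4 (Real.exp_pos _).le le_rfl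
    (W0.trans_le T1) (hS2 ▸ nv_bd ok x0) (h1.trans g2) (fun x y => by unfold ne; rw [q.sym])
    (hS2 ▸ he2)
    (fun u v hu hv => ((hV Q n ι q K φ φ0 K0 K1 ρ' ρ0 M η δ _ T S _ T _ _ ok t1
      (Nat.div_le_self _ _) (Nat.div_le_self _ _) le_rfl).1 u v hu hv).trans b3)
    (fun i y => hf _) (fun i => le_trans (by linarith only [e0, e2]) (h2 i))
    (fun i σ x y => by
      simp only [fi_perm]
      refine (hsl x0 x y _ _ (cf_bd i _).1 (cf_bd i _).2).trans (add_le_add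
        (mul_le_mul_of_nonneg_right (by linarith only [e0, e2]) (expect_nonneg fun w _ => ?_)) b2)
      exact mul_nonneg (mul_nonneg (nv_bd ok x0 w).1 (ne_bd ok x w).1) (ne_bd ok y w).1)
    ((hCnt Q n (T / W) f _ _ x0 (S ^ 2) (by exact_mod_cast hn1) (W0.trans_le T1)
      ((Nat.div_le_self _ _).trans T3.le) hfree (fun x => ⟨(hf x).1, (hfS x).2.trans hSS⟩)
      (nv_bd ok x0) he2).trans ((div_le_div_of_nonneg_left (by positivity) W2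
        (Nat.cast_le.2 T1)).trans (by linarith only [b5, e0, e2])))
  simp only [fi_perm] at o6
  exact ⟨x0, lx q x0, _, _, _, p, N, fun y => perp_add (htriv.1 y) (htriv.2 x0 y), (cf_bd i _).1,
    (cf_bd i _).2, (cf_bd i _).1, (cf_bd i _).2, (cf_bd i _).1, (cf_bd i _).2, o1, o2.trans y5, o3,
    o4.trans y5, o5, h1.trans g1, o6⟩

end Vale.Agent.P057Z.Sa
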