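import Vale.Agent.P057Z.Sa.Sk
import Vale.Agent.P057Z.Rg.Base

/-! Slices are cells. -/

set_option linter.all false

open Finset
open scoped BigOperators

namespace Vale.Agent.P057Z.Sa

noncomputable section

namespace Slice

theorem prod3 {a1 a2 a3 b1 b2 b3 e : ℝ} (h2 : 0 ≤ a2) (h2' : a2 ≤ 1) (h3 : 0 ≤ a3) (h3' : a3 ≤ 1)
    (k1 : 0 ≤ b1) (k1' : b1 ≤ 1) (k2 : 0 ≤ b2) (k2' : b2 ≤ 1)
    (e1 : |a1 - b1| ≤ e) (e2 : |a2 - b2| ≤ e) (e3 : |a3 - b3| ≤ e) :
    |a1 * a2 * a3 - b1 * b2 * b3| ≤ 3 * e := by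
  have he : 0 ≤ e := (abs_nonneg _).trans e1
  have q : a1 * a2 * a3 - b1 * b2 * b3 =
      (a1 - b1) * (a2 * a3) + (a2 - b2) * (b1 * a3) + (a3 - b3) * (b1 * b2) := by ring
  have t : ∀ d u v : ℝ, |d| ≤ e → 0 ≤ u → u ≤ 1 → 0 ≤ v → v ≤ 1 → |d * (u * v)| ≤ e := by
    intro d u v hd hu hu' hv hv'
    rw [abs_mul, abs_of_nonneg (mul_nonneg hu hv)]
    calc |d| * (u * v) ≤ e * 1 :=
          mul_le_mul hd (mul_le_one₀ hu' hv hv') (mul_nonneg hu hv) he
      _ = e := mul_one e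
  rw [q]
  have a := t _ _ _ e1 h2 h2' h3 h3'
  have b := t _ _ _ e2 k1 k1' h3 h3'
  have c := t _ _ _ e3 k1 k1' k2 k2'
  have := abs_add_three ((a1 - b1) * (a2 * a3)) ((a2 - b2) * (b1 * a3)) ((a3 - b3) * (b1 * b2))
  linarith

theorem side {T W J T0 : ℕ} (hJ : 1 ≤ J) (hW : 2 ≤ W) (hT : W ^ 10 ≤ T) (h0 : 1 ≤ T0)
    (hl : Real.log T0 ≤ Real.log (T / W : ℕ) / (2 * J : ℕ)) :
    T0 * W ≤ T / W := by
  have hW0 : 0 < W := by omega
  have a1 : W ^ 2 ≤ T / W := by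
    rw [Nat.le_div_iff_mul_le hW0]
    refine le_trans ?_ hT
    rw [← pow_succ]
    exact Nat.pow_le_pow_right hW0 (by norm_num)
  have a0 : 0 < T / W := lt_of_lt_of_le (pow_pos hW0 2) a1
  have a0' : (0 : ℝ) < (T / W : ℕ) := by exact_mod_cast a0
  have hJ' : (2 : ℝ) ≤ (2 * J : ℕ) := by exact_mod_cast (by omega : 2 ≤ 2 * J)
  have a2 : Real.log (T / W : ℕ) / (2 * J : ℕ) ≤ Real.log (T / W : ℕ) / 2 :=
    div_le_div_of_nonneg_left (Real.log_natCast_nonneg _) (by norm_num) hJ'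
  have h0' : (0 : ℝ) < T0 := by exact_mod_cast h0
  have a3 : Real.log ((T0 : ℝ) ^ 2) ≤ Real.log (T / W : ℕ) := by
    rw [Real.log_pow]; push_cast; linarith
  have a4 : (T0 : ℝ) ^ 2 ≤ (T / W : ℕ) := (Real.log_le_log_iff (by positivity) a0').1 a3
  have a5 : T0 ^ 2 ≤ T / W := by exact_mod_cast a4
  have a6 : (T0 * W) ^ 2 ≤ (T / W) ^ 2 := by
    rw [mul_pow, sq (T / W)]
    exact Nat.mul_le_mul a5 a1
  exact (Nat.pow_le_pow_iff_left (by norm_num)).1 a6

theorem shr {n T W J T0 r : ℕ} {R Λ : ℝ} (hJ : 1 ≤ J) (hn : r ≤ n) (hR : (r : ℝ) ≤ R) (hW : 2 ≤ W)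
    (hT : W ^ 10 ≤ T) (hΛ : 4 * Real.log W ≤ Λ) (h0 : 1 ≤ T0)
    (hl : Real.log T0 ≤ Real.log (T / W : ℕ) / (2 * J : ℕ)) :
    Shr n T (n - r) (T / W / (T0 * W)) R (1 / J) Λ := by
  have hs := side hJ hW hT h0 hl
  have hW0 : 0 < W := by omega
  have p : 1 ≤ T0 * W := Nat.mul_pos h0 hW0
  have hWT : W ≤ T := le_trans (Nat.le_self_pow (by norm_num) W) hT
  refine ⟨?_, Nat.sub_le _ _, Nat.div_pos hs p,
    (Nat.div_le_self _ _).trans (Nat.div_le_self _ _), ?_⟩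
  · rw [Nat.cast_sub hn]; linarith
  · have b1 := Rg.log_div p hs
    have b2 := Rg.log_div hW0 hWT
    have h0' : (0 : ℝ) < T0 := by exact_mod_cast h0
    have hW' : (2 : ℝ) ≤ W := by exact_mod_cast hW
    have b3 : Real.log ((T0 * W : ℕ) : ℝ) = Real.log T0 + Real.log W := by
      push_cast
      exact Real.log_mul h0'.ne' (by positivity)
    have b4 : Real.log 2 ≤ Real.log W := Real.log_le_log (by norm_num) hW'
    have b5 : Real.log ((T / W : ℕ) : ℝ) ≤ Real.log T := by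
      have : 0 < T / W := Nat.div_pos hWT hW0
      exact Real.log_le_log (by exact_mod_cast this) (by exact_mod_cast Nat.div_le_self T W)
    have hJ' : (1 : ℝ) ≤ J := by exact_mod_cast hJ
    have b6 : Real.log (T / W : ℕ) / (2 * J : ℕ) ≤ 1 / J * Real.log T := by
      rw [one_div, ← div_eq_inv_mul]
      refine div_le_div₀ (Real.log_natCast_nonneg _) b5 (by linarith) ?_
      push_cast; linarith
    linarith

variable {Q : ℕ} [Fact Q.Prime] {n n' : ℕ} {ι : Type} [Fintype ι] [DecidableEq ι]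

/-- a row of a linear map -/
def row (L : V Q n →ₗ[ZMod Q] (ι → ZMod Q)) (i : ι) : V Q n := fun j => L (Pi.single j 1) i

theorem row_dot (L : V Q n →ₗ[ZMod Q] (ι → ZMod Q)) (i : ι) (w : V Q n) :
    row L i ⬝ᵥ w = L w i := by
  have h : w = ∑ j, w j • (Pi.single j 1 : V Q n) :=
    funext fun k => by simp [Finset.sum_apply, Pi.single_apply]
  conv_rhs => rw [h, map_sum]
  simp [row, dotProduct, Finset.sum_apply, mul_comm]

theorem l1_small (L : V Q n →ₗ[ZMod Q] (ι → ZMod Q)) (P : V Q n' →ₗ[ZMod Q] V Q n) {τ : ℝ}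
    (h : ∀ i m, nm (row L i ⬝ᵥ P (Pi.single m 1)) ≤ τ) {t : V Q n'} {T' : ℕ}
    (ht : t ∈ bx Q n' T') : l1 (L (P t)) ≤ Fintype.card ι * (n' * (T' * τ)) :=
  Ke.l1_le_card fun i =>
    Rg.nm_lin (θ := (LinearMap.proj i).comp (L.comp P)) (fun m => by
      have := h i m
      rwa [row_dot] at this) (Rg.near_bx ht)

/-- the quadratic map of the vertex weight -/
def qs (B : Bil Q n ι) (h : ∀ x y, B x y = B y x) : Quad Q n ι :=
  ⟨0, 0, (6 : ZMod Q)⁻¹ • B, fun x y => by simp only [LinearMap.smul_apply]; rw [h]⟩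

theorem qs_ev (B : Bil Q n ι) (h : ∀ x y, B x y = B y x) (y : V Q n) :
    (qs B h).ev y = (12 : ZMod Q)⁻¹ • B y y := by
  unfold Quad.ev qs
  simp only [LinearMap.smul_apply, LinearMap.zero_apply, zero_add, smul_smul]
  rw [← mul_inv, show (2 * 6 : ZMod Q) = 12 by norm_num]

/-- the real inequality behind the row -/
theorem core {T1 T' T0 : ℕ} {A H : V Q n → ℝ} {P : V Q n' →ₗ[ZMod Q] V Q n} {a b e κ : ℝ}
    (h1 : 1 ≤ T1) (h2 : T1 ≤ Q) (h3 : 1 ≤ T') (hP : SmallMap P T0)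
    (hA : ∀ w, 0 ≤ A w ∧ A w ≤ a) (hH : ∀ w, |H w| ≤ b) (hκ : 0 ≤ κ)
    (he : ∀ w, ∀ t ∈ bx Q n' T', |A (w + P t) - A w| ≤ e)
    (hk : ∀ w, 𝔼 t ∈ bx Q n' T', H (w + P t) ≤ κ) :
    𝔼 w ∈ bx Q n T1, A w * H w ≤
      a * κ + e * b + 2 * n * (n' * T0 * T' : ℕ) / T1 * (a * b) := by
  have ha : 0 ≤ a := (hA 0).1.trans (hA 0).2
  obtain ⟨w, hw⟩ := Rg.sub1 (Rg.bx_ne (Q := Q) (n := n') h3) (g := fun w => A w * H w)
    (M := a * b) (p := fun t => P t) (t := n' * T0 * T')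
    (fun w => by
      rw [abs_mul, abs_of_nonneg (hA w).1]
      exact mul_le_mul (hA w).2 (hH w) (abs_nonneg _) ha)
    (fun t ht => Rg.near_map hP (Rg.near_bx ht)) h1 h2
  refine hw.trans (add_le_add_left ?_ _)
  have k : 𝔼 t ∈ bx Q n' T', A (w + P t) * H (w + P t) ≤
      𝔼 t ∈ bx Q n' T', (A w * H (w + P t) + e * b) := by
    refine expect_le_expect fun t ht => ?_
    have u := he w t ht
    have v : |(A (w + P t) - A w) * H (w + P t)| ≤ e * b := by
      rw [abs_mul]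
      exact mul_le_mul u (hH _) (abs_nonneg _) ((abs_nonneg _).trans u)
    linarith [le_abs_self ((A (w + P t) - A w) * H (w + P t))]
  refine k.trans ?_
  rw [expect_add_distrib, expect_const (Rg.bx_ne h3), ← mul_expect]
  have := mul_le_mul_of_nonneg_left (hk w) (hA w).1
  have := mul_le_mul_of_nonneg_right (hA w).2 hκ
  linarith

end Slice

open Slice in
theorem slice_of (hK : KILL) (hF : FOL) : SLICE := by
  intro Q _ n ι _ _ q K φ φ0 K0 K1 ρ' ρ0 M η δ Tlo Thi S s T W J f θ R Λ κ' x0 x y z c ok hJ hn hR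
    hSW hWT hTQ hΛ hf hθ0 hθ2 hκ hc0 hc3 hI
  have hS := ok.hS
  have hS0 : 0 < S := by linarith
  have hS4 : (10 : ℝ) ^ 4 ≤ S ^ 4 := pow_le_pow_left₀ (by norm_num) hS 4
  have hW2 : 2 ≤ W := by
    have : (2 : ℝ) ≤ W := by linarith
    exact_mod_cast this
  have hW0 : 0 < W := by omega
  have hWr : (0 : ℝ) < W := by exact_mod_cast hW0
  have hW1 : W ≤ T / W := by
    rw [Nat.le_div_iff_mul_le hW0]
    refine le_trans ?_ hWT
    rw [← sq]
    exact Nat.pow_le_pow_right hW0 (by norm_num)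
  have hT1 : T / W < Q := lt_of_le_of_lt (Nat.div_le_self _ _) hTQ
  have hT10 : 1 ≤ T / W := hW0.trans_le hW1
  have hT1r : (0 : ℝ) < (T / W : ℕ) := by exact_mod_cast hT10
  have hcard : ((univ.image (row (lx q x0)) ∪ univ.image (row (q.B x))) ∪
      univ.image (row (q.B y))).card ≤ 3 * Fintype.card ι := by
    have a1 := card_image_le (s := (univ : Finset ι)) (f := row (lx q x0))
    have a2 := card_image_le (s := (univ : Finset ι)) (f := row (q.B x))
    have a3 := card_image_le (s := (univ : Finset ι)) (f := row (q.B y))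
    have b1 := card_union_le (univ.image (row (lx q x0))) (univ.image (row (q.B x)))
    have b2 := card_union_le (univ.image (row (lx q x0)) ∪ univ.image (row (q.B x)))
      (univ.image (row (q.B y)))
    rw [card_univ] at a1 a2 a3
    omega
  have hn' : 2 * (2 * J) * (3 * Fintype.card ι) ≤ n := by
    rw [show 2 * (2 * J) * (3 * Fintype.card ι) = 12 * J * Fintype.card ι by ring]; exact hn
  obtain ⟨T0, P, h0, hl, hinj, hsm, hk⟩ := hK Q n (2 * J) (3 * Fintype.card ι) (T / W) W _ hcard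
    (by omega) hn' hW0 hW1 hT1
  have hsh := shr (n := n) (R := R) (Λ := Λ) hJ hn' (by push_cast; linarith) hW2 hWT hΛ h0 hl
  generalize hn2 : n - 2 * (2 * J) * (3 * Fintype.card ι) = n' at P hinj hsm hk hsh
  have hn3 : (n' : ℝ) ≤ S := by
    have : (n' : ℝ) ≤ n := by exact_mod_cast hsh.2.1
    exact this.trans ok.hn
  have hT' : 1 ≤ T / W / (T0 * W) := hsh.2.2.1
  have hT2 : T / W / (T0 * W) * (T0 * W) ≤ T / W := Nat.div_mul_le_self _ _
  have hT3 : T / W / (T0 * W) ≤ T / W := Nat.div_le_self _ _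
  generalize T / W / (T0 * W) = T' at hsh hT' hT2 hT3
  generalize T / W = T1 at *
  have hm : 0 < avg K φ 0 := pos_of_mul_pos_left (by linarith [ok.m1]) hS0.le
  have hm0 : 0 < avg K φ0 0 := pos_of_mul_pos_left (by linarith [ok.m0]) hS0.le
  have hρ : 0 < ρ' := ok.r0.trans_le ok.r1
  have hD : 1 / (avg K φ 0 ^ 3 * avg K φ0 0) ≤ S ^ 4 := by
    rw [div_le_iff₀ (by positivity)]
    have a1 : 1 ≤ (S * avg K φ 0) ^ 3 := one_le_pow₀ ok.m1
    have a2 := one_le_mul_of_one_le_of_one_le a1 ok.m0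
    linarith [show (S * avg K φ 0) ^ 3 * (S * avg K φ0 0) =
      S ^ 4 * (avg K φ 0 ^ 3 * avg K φ0 0) by ring]
  have hD0 : 0 ≤ 1 / (avg K φ 0 ^ 3 * avg K φ0 0) := by positivity
  have p := fun u => (ok.k1.ll.pos u).le
  have p1 := ok.k1.ll.le_one
  have hε : S ^ 3 / W ≤ 1 := by
    rw [div_le_one hWr]
    exact (pow_le_pow_right₀ (by linarith) (by norm_num)).trans hSW
  have mv : ∀ L : V Q n →ₗ[ZMod Q] (ι → ZMod Q),
      (∀ i m, nm (row L i ⬝ᵥ P (Pi.single m 1)) ≤ 1 / ((W : ℝ) * T1)) →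
      ∀ w, ∀ t ∈ bx Q n' T', |φ (L (w + P t)) - φ (L w)| ≤ 2 * (S ^ 3 / W) := by
    intro L hL w t ht
    rw [map_add]
    refine Rg.ll_pert ok.k1.ll ?_ (by positivity) hε _
    have a1 := l1_small L P hL ht
    have a2 : 1 / ρ' ≤ S := by rw [div_le_iff₀ hρ]; exact ok.r2
    have a3 : (T' : ℝ) * (1 / ((W : ℝ) * T1)) ≤ 1 / W := by
      rw [mul_one_div, div_le_div_iff₀ (by positivity) hWr]
      have : (T' : ℝ) ≤ T1 := by exact_mod_cast hT3
      nlinarith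
    have a4 : (Fintype.card ι : ℝ) * (n' * (T' * (1 / ((W : ℝ) * T1)))) ≤ S * (S * (1 / W)) :=
      mul_le_mul ok.hc (mul_le_mul hn3 a3 (by positivity) hS0.le) (by positivity) hS0.le
    calc 1 / ρ' * l1 (L (P t)) ≤ S * (S * (S * (1 / W))) :=
          mul_le_mul a2 (a1.trans a4) (Ke.l1_nonneg _) hS0.le
      _ = S ^ 3 / W := by ring
  have hcQ : (c : ZMod Q) ≠ 0 := int_ne c hc0 (by have := ok.hQ; omega)
  have main := core (T1 := T1) (T' := T') (T0 := T0) (P := P)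
    (A := fun w => φ (lx q x0 w) * φ (q.B x w) * φ (q.B y w) * (1 / (avg K φ 0 ^ 3 * avg K φ0 0)))
    (H := fun w => φ0 ((12 : ZMod Q)⁻¹ • q.B w w) * (f (z + c • w) - θ))
    (a := S ^ 4) (b := S) (e := 3 * (2 * (S ^ 3 / W)) * S ^ 4) (κ := κ') hT10 hT1.le hT' hsm
    (fun w => ⟨mul_nonneg (mul_nonneg (mul_nonneg (p _) (p _)) (p _)) hD0, by
      have := mul_le_one₀ (mul_le_one₀ (p1 (lx q x0 w)) (p (q.B x w)) (p1 _)) (p (q.B y w)) (p1 _)
      exact (mul_le_mul this hD hD0 zero_le_one).trans_eq (one_mul _)⟩)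
    (fun w => by
      rw [abs_mul, abs_of_pos (ok.k0.ll.pos _)]
      have a : |f (z + c • w) - θ| ≤ S :=
        abs_le.2 ⟨by linarith [(hf (z + c • w)).1], by linarith [(hf (z + c • w)).2]⟩
      exact (mul_le_mul (ok.k0.ll.le_one _) a (abs_nonneg _) zero_le_one).trans_eq (one_mul _))
    hκ
    (fun w t ht => by
      rw [← sub_mul, abs_mul, abs_of_nonneg hD0]
      refine mul_le_mul (prod3 (p _) (p1 _) (p _) (p1 _) (p _) (p1 _) (p _) (p1 _)
        (mv _ (fun i => hk _ ?_) w t ht) (mv _ (fun i => hk _ ?_) w t ht)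
        (mv _ (fun i => hk _ ?_) w t ht)) hD hD0 (by positivity)
      · exact mem_union_left _ (mem_union_left _ (mem_image_of_mem _ (mem_univ i)))
      · exact mem_union_left _ (mem_union_right _ (mem_image_of_mem _ (mem_univ i)))
      · exact mem_union_right _ (mem_image_of_mem _ (mem_univ i)))
    (fun w => by
      refine le_of_not_gt fun h => hI ⟨n', T', ι, inferInstance, inferInstance, z + c • w,
        (dil Q n c).comp P, (qs q.B q.sym).comp w P, φ0, (dil_inj hcQ).comp hinj, hsh, le_rfl,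
        ok.k0.ll, h.le.trans_eq (expect_congr rfl fun t _ => ?_)⟩
      rw [Quad.ev_comp (by have := ok.hQ; omega), qs_ev, LinearMap.comp_apply, dil_apply,
        smul_add, add_assoc])
  have e1 : 𝔼 w ∈ bx Q n T1, nv (lx q x0) q.B K φ φ0 w * ne q.B K φ x w * ne q.B K φ y w *
      f (z + c • w) = θ * (𝔼 w ∈ bx Q n T1, nv (lx q x0) q.B K φ φ0 w * ne q.B K φ x w *
        ne q.B K φ y w) + 𝔼 w ∈ bx Q n T1, φ (lx q x0 w) * φ (q.B x w) * φ (q.B y w) *
          (1 / (avg K φ 0 ^ 3 * avg K φ0 0)) *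
            (φ0 ((12 : ZMod Q)⁻¹ • q.B w w) * (f (z + c • w) - θ)) := by
    rw [mul_expect, ← expect_add_distrib]
    refine expect_congr rfl fun w _ => ?_
    unfold nv ne
    field_simp
    ring
  rw [e1]
  refine add_le_add_right (main.trans ?_) _
  have f1 : 2 * (n : ℝ) * (n' * T0 * T' : ℕ) / T1 ≤ 2 * S * S / W := by
    rw [div_le_div_iff₀ hT1r hWr]
    have a1 : (T' : ℝ) * (T0 * W) ≤ T1 := by exact_mod_cast hT2
    have a2 : (n : ℝ) * n' ≤ S * S := mul_le_mul ok.hn hn3 (by positivity) hS0.le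
    have a3 := mul_le_mul a2 a1 (by positivity) (by positivity)
    push_cast
    linarith
  have f2 := mul_le_mul_of_nonneg_right f1 (show 0 ≤ S ^ 4 * S by positivity)
  have f3 : 6 * S ^ 8 + 2 * S ^ 7 ≤ S ^ 12 := by
    have a1 : S ^ 7 ≤ S ^ 8 := pow_le_pow_right₀ (by linarith) (by norm_num)
    have a2 := mul_le_mul_of_nonneg_right hS4 (show 0 ≤ S ^ 8 by positivity)
    have a3 : 0 ≤ S ^ 8 := by positivity
    linarith [show S ^ 4 * S ^ 8 = S ^ 12 by ring]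
  have f4 := div_le_div_of_nonneg_right f3 hWr.le
  linarith [show 3 * (2 * (S ^ 3 / W)) * S ^ 4 * S + 2 * S * S / W * (S ^ 4 * S) =
    (6 * S ^ 8 + 2 * S ^ 7) / W by ring]

end

end Vale.Agent.P057Z.Sa
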