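import Vale.Agent.P057Z.Sa.Sk

/-! Block START: the mass of the triangle, the base point, the trivial count. -/

set_option linter.all false

open Finset
open scoped BigOperators

namespace Vale.Agent.P057Z.Sa

namespace Tri

variable {α : Type} {s : Finset α}

theorem abs_exp (hs : s.Nonempty) {f : α → ℝ} {M : ℝ} (h : ∀ x ∈ s, |f x| ≤ M) :
    |𝔼 x ∈ s, f x| ≤ M :=
  abs_le.2 ⟨le_expect hs fun x hx => (abs_le.1 (h x hx)).1,
    expect_le hs fun x hx => (abs_le.1 (h x hx)).2⟩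

theorem term (hs : s.Nonempty) {e : α → α → ℝ} {S γ : ℝ} (hS : 1 ≤ S)
    (he : ∀ u v : α → ℝ, (∀ x, |u x| ≤ 1) → (∀ y, |v y| ≤ 1) →
      |𝔼 x ∈ s, 𝔼 y ∈ s, u x * v y * (e x y - 1)| ≤ γ) (c : α → ℝ) (a b : α → α → ℝ)
    (hc : ∀ w, |c w| ≤ S) (ha : ∀ w x, |a w x| ≤ S ^ 2) (hb : ∀ w x, |b w x| ≤ S ^ 2) :
    |𝔼 w ∈ s, 𝔼 x ∈ s, 𝔼 y ∈ s, c w * (a w x * b w y * (e x y - 1))| ≤ S ^ 5 * γ := by
  have h0 : 0 < S ^ 2 := by positivity
  refine abs_exp hs fun w _ => ?_
  have h1 := he (fun x => a w x / S ^ 2) (fun y => b w y / S ^ 2)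
    (fun x => by rw [abs_div, abs_of_pos h0, div_le_one h0]; exact ha w x)
    (fun x => by rw [abs_div, abs_of_pos h0, div_le_one h0]; exact hb w x)
  have h2 : 𝔼 x ∈ s, 𝔼 y ∈ s, c w * (a w x * b w y * (e x y - 1)) = c w * S ^ 4 *
      𝔼 x ∈ s, 𝔼 y ∈ s, a w x / S ^ 2 * (b w y / S ^ 2) * (e x y - 1) := by
    simp only [mul_expect]
    refine expect_congr rfl fun x _ => expect_congr rfl fun y _ => ?_
    field_simp
  rw [h2, abs_mul, abs_mul, abs_of_pos (by positivity : 0 < S ^ 4),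
    show S ^ 5 = S * S ^ 4 by ring]
  have := hc w
  gcongr

theorem card_bx (Q n T : ℕ) [Fact Q.Prime] (hn : 1 ≤ n) (hT : 1 ≤ T) (hQ : T ≤ Q) :
    T ≤ #(bx Q n T) := by
  rw [bx, Fintype.card_piFinset, prod_const, card_univ, Fintype.card_fin,
    card_image_of_injOn, card_range]
  · exact Nat.le_self_pow (by omega) T
  · intro a ha b hb h
    have ha' := mem_range.1 ha
    have hb' := mem_range.1 hb
    have := (ZMod.natCast_eq_natCast_iff' a b Q).1 h
    rwa [Nat.mod_eq_of_lt (by omega), Nat.mod_eq_of_lt (by omega)] at this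

end Tri

open Tri

theorem tri_of (hP : PI) : TRI := by
  intro α _ s ν e S γ γ1 hs hS hν he hc hm hγ
  have a1 : ∀ x, |ν x| ≤ S := fun x => abs_le.2 ⟨by linarith [(hν x).1], (hν x).2⟩
  have a2 : ∀ x, |ν x| ≤ S ^ 2 := fun x => (a1 x).trans (by nlinarith)
  have a3 : ∀ x y z, |ν x * e y z| ≤ S ^ 2 := fun x y z => by
    rw [abs_of_nonneg (mul_nonneg (hν x).1 (he y z).1), sq]
    exact mul_le_mul (hν x).2 (he y z).2 (he y z).1 (by linarith)
  have t1 := term hs hS hc ν (fun w x => ν x * e x w) (fun w y => ν y * e y w) a1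
    (fun _ _ => a3 _ _ _) fun _ _ => a3 _ _ _
  have t2 := term hs hS hc ν (fun _ x => ν x) (fun y w => ν w * e y w) a1
    (fun _ _ => a2 _) fun _ _ => a3 _ _ _
  have t3 := term hs hS hc ν (fun _ x => ν x) (fun _ x => ν x) a1 (fun _ _ => a2 _)
    fun _ _ => a2 _
  rw [expect_comm] at t1 t2
  rw [expect_congr rfl fun x _ => expect_comm _ _ _] at t1
  set m := 𝔼 x ∈ s, ν x with hmd
  have h1 : tri s ν e (fun _ => 1) = m ^ 3 +
      (𝔼 x ∈ s, 𝔼 y ∈ s, 𝔼 w ∈ s, ν w * (ν x * e x w * (ν y * e y w) * (e x y - 1))) +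
      (𝔼 x ∈ s, 𝔼 y ∈ s, 𝔼 w ∈ s, ν y * (ν x * (ν w * e y w) * (e x w - 1))) +
      𝔼 x ∈ s, 𝔼 y ∈ s, 𝔼 w ∈ s, ν x * (ν y * ν w * (e y w - 1)) := by
    have h2 : m ^ 3 = 𝔼 x ∈ s, 𝔼 y ∈ s, 𝔼 w ∈ s, ν x * (ν y * ν w) := by
      simp only [← mul_expect, ← expect_mul, ← hmd]
      ring
    rw [tri, (hP α s).1 _ 1, h2]
    simp only [← expect_add_distrib]
    refine expect_congr rfl fun x _ => expect_congr rfl fun y _ => expect_congr rfl fun w _ => ?_
    simp [Fin.prod_univ_three]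
    ring
  have h3 : |m ^ 3 - 1| ≤ 7 * γ := by
    obtain ⟨p, q⟩ := abs_le.1 hm
    rw [show m ^ 3 - 1 = (m ^ 2 + m + 1) * (m - 1) by ring, abs_mul,
      abs_of_nonneg (by nlinarith : 0 ≤ m ^ 2 + m + 1)]
    exact mul_le_mul (by nlinarith) hm (abs_nonneg _) (by norm_num)
  rw [h1]
  rw [abs_le] at t1 t2 t3 h3 ⊢
  constructor <;> linarith [t1.1, t1.2, t2.1, t2.2, t3.1, t3.2, h3.1, h3.2]

theorem pick : PICK := by
  classical
  intro α s w mn good e β S hs hw hmn hS he hβ hA hβA hlo hup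
  by_contra hcon
  push Not at hcon
  set g : α → ℝ := fun x => if good x then w x else 0 with hg
  have h1 : (𝔼 x ∈ s, w x) - β ≤ 𝔼 x ∈ s, g x := by
    have : 𝔼 x ∈ s, w x ≤ 𝔼 x ∈ s, (g x + if good x then (0 : ℝ) else 1) :=
      expect_le_expect fun x _ => by
        simp only [hg]
        split_ifs <;> linarith [(hw x).2]
    rw [expect_add_distrib] at this
    linarith
  have h2 : 𝔼 x ∈ s, g x ≤ 𝔼 x ∈ s, w x := expect_le_expect fun x _ => by
    simp only [hg]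
    split_ifs <;> linarith [(hw x).1]
  have h3 : ∀ i, (1 - e) * 𝔼 x ∈ s, w x ≤ 𝔼 x ∈ s, g x * mn i x := fun i => by
    have : 𝔼 x ∈ s, w x * mn i x ≤
        𝔼 x ∈ s, (g x * mn i x + (if good x then (0 : ℝ) else 1) * S) :=
      expect_le_expect fun x _ => by
        simp only [hg]
        split_ifs <;> nlinarith [(hw x).1, (hw x).2, hmn i x]
    rw [expect_add_distrib, ← expect_mul] at this
    nlinarith [hlo i]
  obtain ⟨x, hx, hx'⟩ : ∃ x ∈ s, 0 < g x := by
    by_contra h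
    push Not at h
    have := expect_le hs h
    linarith
  have key : ∀ x ∈ s, good x → mn 0 x + mn 1 x + mn 2 x + mn 3 x < 4 - 16 * e := fun x hx h => by
    obtain ⟨i, hi⟩ := hcon x hx h
    have := hup 0 x h
    have := hup 1 x h
    have := hup 2 x h
    have := hup 3 x h
    fin_cases i <;> simp only [Fin.zero_eta, Fin.mk_one, Fin.reduceFinMk] at hi <;> linarith
  have h4 : 𝔼 x ∈ s, (g x * mn 0 x + g x * mn 1 x + g x * mn 2 x + g x * mn 3 x) <
      𝔼 x ∈ s, (4 - 16 * e) * g x := by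
    refine expect_lt_expect (fun x hx => ?_) ⟨x, hx, ?_⟩
    · simp only [hg]
      split_ifs with h
      · nlinarith [key x hx h, (hw x).1]
      · simp
    · have h : good x := by
        by_contra h
        simp [hg, h] at hx'
      nlinarith [key x hx h]
  rw [expect_add_distrib, expect_add_distrib, expect_add_distrib, ← mul_expect] at h4
  nlinarith [h3 0, h3 1, h3 2, h3 3]

theorem cnt_of (hP : PI) : CNT := by
  intro Q _ n T f ν e x0 S hn hT hQ hf hfS hν he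
  have hS : 0 ≤ S := (hν 0).1.trans (hν 0).2
  have hc := card_bx Q n T hn hT hQ
  have hs : (bx Q n T).Nonempty := card_pos.1 (by omega)
  have hT' : (0 : ℝ) < T := Nat.cast_pos.2 hT
  rw [cnt, (hP _ _).2]
  refine expect_le hs fun x _ => expect_le hs fun y _ => expect_le hs fun z _ => ?_
  refine (expect_le_expect (g := fun w => if w = -(x + y + z) then S ^ 14 else 0)
    fun w _ => ?_).trans ?_
  · have e0 : fi f x0 0 (![x, y, z, w] ∘ (0 : Fin 4).succAbove) =
        f (x0 + (y + 2 • z + 3 • w)) := by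
      simp only [fi, Fin.sum_univ_three]
      exact congrArg f (by change x0 + ((1 : ℤ) • y + (2 : ℤ) • z + (3 : ℤ) • w) = _; module)
    have e1 : fi f x0 1 (![x, y, z, w] ∘ (1 : Fin 4).succAbove) =
        f (x0 + (y + 2 • z + 3 • w) + -(x + y + z + w)) := by
      simp only [fi, Fin.sum_univ_three]
      exact congrArg f (by change x0 + ((-1 : ℤ) • x + (1 : ℤ) • z + (2 : ℤ) • w) = _; module)
    have e2 : fi f x0 2 (![x, y, z, w] ∘ (2 : Fin 4).succAbove) =
        f (x0 + (y + 2 • z + 3 • w) + -(x + y + z + w) + -(x + y + z + w)) := by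
      simp only [fi, Fin.sum_univ_three]
      exact congrArg f (by change x0 + ((-2 : ℤ) • x + (-1 : ℤ) • y + (1 : ℤ) • w) = _; module)
    have e3 : fi f x0 3 (![x, y, z, w] ∘ (3 : Fin 4).succAbove) =
        f (x0 + (y + 2 • z + 3 • w) + -(x + y + z + w) + -(x + y + z + w) + -(x + y + z + w)) := by
      simp only [fi, Fin.sum_univ_three]
      exact congrArg f (by change x0 + ((-3 : ℤ) • x + (-2 : ℤ) • y + (-1 : ℤ) • z) = _; module)
    rw [Fin.prod_univ_four (fun i => fi f x0 i _), e0, e1, e2, e3, Fin.prod_univ_four]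
    split_ifs with h
    · rw [show S ^ 14 = S * S * S * S * (S * S * S * S * S * S) * (S * S * S * S) by ring]
      have m : ∀ {a b A B : ℝ}, (0 ≤ a ∧ a ≤ A) → (0 ≤ b ∧ b ≤ B) → 0 ≤ a * b ∧ a * b ≤ A * B :=
        fun h h' => ⟨mul_nonneg h.1 h'.1, mul_le_mul h.2 h'.2 h'.1 (h.1.trans h.2)⟩
      exact (m (m (m (m (m (hν _) (hν _)) (hν _)) (hν _))
        (m (m (m (m (m (he _ _) (he _ _)) (he _ _)) (he _ _)) (he _ _)) (he _ _)))
        (m (m (m (hfS _) (hfS _)) (hfS _)) (hfS _))).2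
    · rw [hf _ _ fun h' => h (eq_neg_of_add_eq_zero_right (neg_eq_zero.1 h')), mul_zero]
  · rw [expect_eq_sum_div_card, sum_ite_eq']
    have : (T : ℝ) ≤ #(bx Q n T) := Nat.cast_le.2 hc
    split_ifs
    · gcongr
    · rw [zero_div]
      positivity

end Vale.Agent.P057Z.Sa
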