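import Vale.Agent.P057Z.Sa.Sk
import Vale.Agent.P057Z.Ke.Pop
import Vale.Agent.P057Z.Ke.Fol

/-! Block START, rows KER and VTX. -/

set_option linter.all false

open Finset
open scoped BigOperators

namespace Vale.Agent.P057Z.Sa

theorem ker_of (pop : POP) : KER := by
  intro Q _ ι _ _ K φ K0 ρ M η Y hk hY hd hρ hρ1
  have hρ0 : 0 < ρ := (Real.exp_pos _).trans_le hρ
  refine ⟨?_, (Ke.avg_ll hk.ll).le_one 0⟩
  have h1 := (pop Q ι ρ hρ0 hρ1).2 K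
  have h2 : avg K (lap ρ) 0 / 2 ≤ avg K φ 0 := by
    unfold avg
    rw [div_eq_mul_inv, expect_mul]
    exact expect_le_expect fun v _ => hk.lo _
  have h3 : 3 * (Y + 1) ≤ Real.exp Y := by
    have h1 := Real.add_one_le_exp (Y / 2)
    have h2 : Real.exp Y = Real.exp (Y / 2) * Real.exp (Y / 2) := by
      rw [← Real.exp_add]; congr 1; ring
    nlinarith
  have h4 : Real.exp (-(2 * Y)) ≤ ρ / (3 * (Fintype.card ι + 1)) := by
    rw [le_div_iff₀ (by positivity)]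
    calc Real.exp (-(2 * Y)) * (3 * (Fintype.card ι + 1)) ≤ Real.exp (-(2 * Y)) * Real.exp Y :=
          mul_le_mul_of_nonneg_left (by linarith) (Real.exp_pos _).le
      _ = Real.exp (-Y) := by rw [← Real.exp_add]; congr 1; ring
      _ ≤ ρ := hρ
  have h5 : Real.exp (-(2 * Y ^ 2)) ≤ (ρ / (3 * (Fintype.card ι + 1))) ^ Fintype.card ι := by
    refine le_trans ?_ (pow_le_pow_left₀ (Real.exp_pos _).le h4 _)
    rw [← Real.exp_nat_mul]
    refine Real.exp_le_exp.mpr ?_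
    nlinarith
  have h6 : Real.exp (-(Y ^ 2)) ≤ 1 / 6 := by
    rw [Real.exp_neg, ← one_div]
    refine one_div_le_one_div_of_le (by norm_num) ?_
    have := Real.add_one_le_exp (Y ^ 2)
    nlinarith
  calc Real.exp (-(3 * Y ^ 2)) = Real.exp (-(2 * Y ^ 2)) * Real.exp (-(Y ^ 2)) := by
        rw [← Real.exp_add]; congr 1; ring
    _ ≤ Real.exp (-(2 * Y ^ 2)) * (1 / 6) := mul_le_mul_of_nonneg_left h6 (Real.exp_pos _).le
    _ ≤ _ := by linarith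

namespace Vtx

variable {Q : ℕ} [Fact Q.Prime] {n : ℕ} {ι : Type} [Fintype ι] [DecidableEq ι] {q : Quad Q n ι}
  {K : Submodule (ZMod Q) (ι → ZMod Q)} {φ φ0 : (ι → ZMod Q) → ℝ} {K0 K1 : ℕ}
  {ρ' ρ0 M η δ : ℝ} {Tlo Thi : ℕ} {S s : ℝ}

theorem abs_le_one {ρ : ℝ} {Φ : (ι → ZMod Q) → ℝ} (hk : Kern ρ Φ K0 M η) (z : ι → ZMod Q) :
    |Φ z| ≤ 1 := by
  rw [abs_of_pos (hk.ll.pos z)]; exact hk.ll.le_one z

theorem eq1 (eq : EQ) (h : Ok q K φ φ0 K0 K1 ρ' ρ0 M η δ Tlo Thi S s) {ρ : ℝ}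
    {Φ : (ι → ZMod Q) → ℝ} (hk : Kern ρ Φ K0 M η) {T1 T2 : ℕ} (h1 : Tlo ≤ T1) (h1' : T1 ≤ Thi)
    (h2 : Tlo ≤ T2) (h2' : T2 ≤ Thi) {a b : V Q n → ι → ZMod Q} (ha : ∀ x, a x ∈ perp K)
    (hb : ∀ x, b x ∈ perp K) {u v : V Q n → ℝ} (hu : ∀ x, |u x| ≤ 1) (hv : ∀ x, |v x| ≤ 1) :
    |𝔼 x ∈ bx Q n T1, 𝔼 y ∈ bx Q n T2, u x * v y * (Φ (q.B x y + a x + b y) - avg K Φ 0)| ≤ s := by
  have h3 := (eq Q n ι ι q.B K K0 K0 K1 Tlo Thi T1 T2 δ M η M η 1 1 Φ Φ a b a b u v h.reg h.hδ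
    h.triv.2 (by simp) (by have := h.hK; simp; omega) h.hlo h1 h1' h2 h2' hk.fa hk.fa
    (abs_le_one hk) hu hv).1
  have h4 : ∀ x y, avg K Φ (a x + b y) = avg K Φ 0 := fun x y => by
    rw [← Ke.avg_add Φ 0 (Ke.add_mem_perp (ha x) (hb y)), zero_add]
  simp only [one_smul, h4] at h3
  exact h3.trans h.hs

theorem div_le {m S x t : ℝ} (hm : 0 < m) (h : 1 ≤ S * m) (hx : |x| ≤ t) : |x / m| ≤ S * t := by
  have h0 := (abs_nonneg x).trans hx
  rw [abs_div, abs_of_pos hm, div_le_iff₀ hm]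
  nlinarith

theorem quad (hQ : 12 < Q) (x y : V Q n) :
    (12 : ZMod Q)⁻¹ • q.B (x + ((6 : ℤ) : ZMod Q) • y) (x + ((6 : ℤ) : ZMod Q) • y) =
      q.B x y + (12 : ZMod Q)⁻¹ • q.B x x + (3 : ZMod Q) • q.B y y := by
  have h : (12 : ZMod Q) ≠ 0 := fun h => by
    have h1 : ((12 : ℕ) : ZMod Q) = 0 := by exact_mod_cast h
    exact absurd (Nat.le_of_dvd (by norm_num) ((ZMod.natCast_eq_zero_iff _ _).1 h1)) (by omega)
  simp only [map_add, map_smul, LinearMap.add_apply, LinearMap.smul_apply, q.sym y x]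
  funext i
  simp only [Pi.add_apply, Pi.smul_apply, smul_eq_mul]
  push_cast
  field_simp
  ring

theorem two (eq : EQ) (h : Ok q K φ φ0 K0 K1 ρ' ρ0 M η δ Tlo Thi S s) {T1 T2 : ℕ} (h2 : Tlo ≤ T2)
    (h21 : T2 ≤ T1) (h1' : T1 ≤ Thi) :
    |(𝔼 y ∈ bx Q n T1, φ0 ((12 : ZMod Q)⁻¹ • q.B y y) / avg K φ0 0) - 1| ≤
      S ^ 4 * (s + (T2 : ℝ) / T1) := by
  have hm : 0 < avg K φ0 0 := (Ke.avg_ll h.k0.ll).pos 0
  have hT2 : 1 ≤ T2 := h.hlo.trans h2
  have hT1 : 1 ≤ T1 := hT2.trans h21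
  have e1 := eq1 eq h h.k0 (h2.trans h21) h1' h2 (h21.trans h1')
    (a := fun x => (12 : ZMod Q)⁻¹ • q.B x x) (b := fun y => (3 : ZMod Q) • q.B y y)
    (fun x => Ke.smul_mem_perp _ (h.triv.2 x x)) (fun x => Ke.smul_mem_perp _ (h.triv.2 x x))
    (u := fun _ => 1) (v := fun _ => 1) (fun _ => by simp) (fun _ => by simp)
  have e2 := Ke.fol_avg (𝕜 := ℝ) (Ke.bx_nonempty (Q := Q) (n := n) hT2) hT1 (h1'.trans h.hhi)
    (v := fun y => ((6 : ℤ) : ZMod Q) • y) (t := 6 * T2)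
    (fun y hy => Ke.near_smul (Ke.near_of_mem_bx hy) (by norm_num))
    (fun y => φ0 ((12 : ZMod Q)⁻¹ • q.B y y)) (M := 1) fun y => abs_le_one h.k0 _
  simp only [quad h.hQ, Real.norm_eq_abs] at e2
  simp only [one_mul, expect_sub_distrib, expect_const (Ke.bx_nonempty hT1),
    expect_const (Ke.bx_nonempty hT2)] at e1
  have hs : 0 ≤ s := (abs_nonneg _).trans e1
  have hr : (0 : ℝ) ≤ (T2 : ℝ) / T1 := by positivity
  have hS := h.hS
  have e3 : |(𝔼 y ∈ bx Q n T1, φ0 ((12 : ZMod Q)⁻¹ • q.B y y)) - avg K φ0 0| ≤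
      12 * S * (s + (T2 : ℝ) / T1) := by
    have e4 : 2 * (n : ℝ) * ((6 * T2 : ℕ) : ℝ) / T1 * 1 ≤ 12 * S * ((T2 : ℝ) / T1) := by
      push_cast
      calc 2 * (n : ℝ) * (6 * T2) / T1 * 1 = 12 * n * ((T2 : ℝ) / T1) := by ring
        _ ≤ _ := by have := h.hn; gcongr
    rw [abs_le] at e1 e2 ⊢
    constructor <;> nlinarith
  have e5 := div_le hm h.m0 e3
  rw [sub_div, div_self hm.ne'] at e5
  simp only [div_eq_mul_inv (φ0 _), ← expect_mul]
  rw [← div_eq_mul_inv]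
  refine e5.trans ?_
  rw [← mul_assoc]
  refine mul_le_mul_of_nonneg_right ?_ (by positivity)
  have : 12 ≤ S ^ 2 := by nlinarith
  nlinarith

end Vtx

open Vtx in
theorem vtx_of (eq : EQ) (_ : FOL) : VTX := by
  intro Q _ n ι _ _ q K φ φ0 K0 K1 ρ' ρ0 M η δ Tlo Thi S s T T1 T2 h h2 h21 h1T hT
  have hm : 0 < avg K φ 0 := (Ke.avg_ll h.k1.ll).pos 0
  have hm0 : 0 < avg K φ0 0 := (Ke.avg_ll h.k0.ll).pos 0
  have h1 : Tlo ≤ T1 := h2.trans h21
  have h1' : T1 ≤ Thi := h1T.trans hT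
  have htwo := two eq h h2 h21 h1'
  refine ⟨fun u v hu hv => ?_, htwo, ?_⟩
  · have e1 := div_le hm h.m1 (eq1 eq h h.k1 h1 h1' h1 h1' (a := fun _ => 0) (b := fun _ => 0)
      (fun _ => Ke.zero_mem_perp K) (fun _ => Ke.zero_mem_perp K) hu hv)
    simp only [add_zero, div_eq_mul_inv, expect_mul] at e1
    refine le_trans (le_of_eq (congrArg _ (expect_congr rfl fun x _ => expect_congr rfl
      fun y _ => ?_))) e1
    unfold ne
    field_simp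
  · obtain ⟨D, hD⟩ : ∃ D : V Q n → ℝ, D = fun x => 𝔼 y ∈ bx Q n T1,
      φ0 ((12 : ZMod Q)⁻¹ • q.B y y) * (φ (q.B x y + 0 + q.l y) - avg K φ 0) := ⟨_, rfl⟩
    have e1 := eq1 eq h h.k1 (h1.trans h1T) hT h1 h1' (a := fun _ => 0) (b := fun y => q.l y)
      (fun _ => Ke.zero_mem_perp K) h.triv.1 (u := fun x => if 0 ≤ D x then 1 else -1)
      (v := fun y => φ0 ((12 : ZMod Q)⁻¹ • q.B y y)) (fun x => by split_ifs <;> simp)
      fun y => abs_le_one h.k0 _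
    have e2 : 𝔼 x ∈ bx Q n T, |D x| ≤ s := by
      refine le_trans (le_of_eq (expect_congr rfl fun x _ => ?_)) ((le_abs_self _).trans e1)
      simp only [mul_assoc, ← mul_expect]
      rw [show (𝔼 y ∈ bx Q n T1, φ0 ((12 : ZMod Q)⁻¹ • q.B y y) *
        (φ (q.B x y + 0 + q.l y) - avg K φ 0)) = D x by rw [hD]]
      split_ifs with hx
      · rw [one_mul, abs_of_nonneg hx]
      · rw [neg_one_mul, abs_of_neg (not_le.mp hx)]
    have hs : 0 ≤ s := (abs_nonneg _).trans e1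
    have hr : (0 : ℝ) ≤ (T2 : ℝ) / T1 := by positivity
    have hS := h.hS
    have e3 : ∀ x, |(𝔼 y ∈ bx Q n T1, nv (lx q x) q.B K φ φ0 y) - 1| ≤
        S ^ 2 * |D x| + S ^ 4 * (s + (T2 : ℝ) / T1) := fun x => by
      have e4 : (𝔼 y ∈ bx Q n T1, nv (lx q x) q.B K φ φ0 y) - 1 =
          D x / avg K φ 0 / avg K φ0 0 +
            ((𝔼 y ∈ bx Q n T1, φ0 ((12 : ZMod Q)⁻¹ • q.B y y) / avg K φ0 0) - 1) := by
        rw [← add_sub_assoc, hD]
        simp only [div_eq_mul_inv, expect_mul, ← expect_add_distrib]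
        congr 1
        refine expect_congr rfl fun y _ => ?_
        simp only [nv, lx, LinearMap.add_apply, add_zero, add_comm (q.l y)]
        field_simp
        ring
      rw [e4]
      refine (abs_add_le _ _).trans (add_le_add ?_ htwo)
      refine (div_le hm0 h.m0 (div_le hm h.m1 le_rfl)).trans (le_of_eq ?_)
      ring
    refine (expect_le_expect fun x _ => e3 x).trans ?_
    rw [expect_add_distrib, ← mul_expect,
      expect_const (Ke.bx_nonempty (h.hlo.trans (h1.trans h1T)))]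
    have e5 : S ^ 2 * 𝔼 x ∈ bx Q n T, |D x| ≤ S ^ 2 * (s + (T2 : ℝ) / T1) :=
      mul_le_mul_of_nonneg_left (by linarith) (by positivity)
    have e6 : S ^ 2 + S ^ 4 ≤ S ^ 5 := by
      have h3 : S ^ 2 ≤ S ^ 4 := pow_le_pow_right₀ (by linarith) (by norm_num)
      have h4 : S ^ 5 = S * S ^ 4 := by ring
      have h5 : 0 ≤ S ^ 4 := by positivity
      nlinarith
    have e7 := mul_le_mul_of_nonneg_right e6 (add_nonneg hs hr)
    linarith

end Vale.Agent.P057Z.Sa
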