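import Vale.Agent.P057Z.Sa.Sk

/-! The hypergraph step for weights on a box. -/

open Finset
open scoped BigOperators

namespace Vale.Agent.P057Z.Sa

noncomputable section

namespace HgeX

variable {Ω : Type} [Fintype Ω] [DecidableEq Ω]

/-- the normalised weight -/
def mu (s : Finset Ω) (ν : Ω → ℝ) (Z : ℝ) (x : Ω) : ℝ := if x ∈ s then ν x / (#s * Z) else 0

variable {s : Finset Ω} {ν : Ω → ℝ} {Z : ℝ}

theorem sum_one (G : Ω → ℝ) : ∑ x, mu s ν Z x * G x = (𝔼 x ∈ s, ν x * G x) / Z := by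
  rw [expect_eq_sum_div_card, div_div, sum_div, ← sum_subset (subset_univ s)]
  · refine sum_congr rfl fun x hx => ?_
    rw [mu, if_pos hx]
    ring
  · intro x _ hx
    rw [mu, if_neg hx, zero_mul]

theorem sum_pi {N : ℕ} (G : (Fin N → Ω) → ℝ) : ∑ w : Fin N → Ω, (∏ l, mu s ν Z (w l)) * G w =
    (𝔼 w ∈ Fintype.piFinset (fun _ : Fin N => s), (∏ l, ν (w l)) * G w) / Z ^ N := by
  rw [expect_eq_sum_div_card, div_div, sum_div,
    ← sum_subset (subset_univ (Fintype.piFinset fun _ : Fin N => s))]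
  · refine sum_congr rfl fun w hw => ?_
    have h : ∀ l, mu s ν Z (w l) = ν (w l) / (#s * Z) := fun l =>
      if_pos (Fintype.mem_piFinset.1 hw l)
    simp only [h]
    rw [prod_div_distrib, Fintype.card_piFinset]
    simp only [prod_const, card_univ, Fintype.card_fin, mul_pow]
    push_cast
    ring
  · intro w _ hw
    rw [Fintype.mem_piFinset, not_forall] at hw
    obtain ⟨l, hl⟩ := hw
    rw [prod_eq_zero (mem_univ l) (if_neg hl), zero_mul]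

theorem sum_two (G : Ω → Ω → ℝ) : ∑ x, ∑ y, mu s ν Z x * mu s ν Z y * G x y =
    (𝔼 x ∈ s, 𝔼 y ∈ s, ν x * ν y * G x y) / Z ^ 2 := by
  have h : ∀ x, ∑ y, mu s ν Z x * mu s ν Z y * G x y =
      mu s ν Z x * ((𝔼 y ∈ s, ν y * G x y) / Z) := fun x => by
    rw [← sum_one, mul_sum]
    exact sum_congr rfl fun y _ => by ring
  rw [sum_congr rfl fun x _ => h x, sum_one, expect_div, expect_div]
  refine expect_congr rfl fun x _ => ?_
  rw [expect_div, mul_expect, expect_div, expect_div]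
  exact expect_congr rfl fun y _ => by ring

theorem sum_grid {N p : ℕ} (E : (Fin N → Ω) → (Fin p → Ω) → ℝ)
    (G : (Fin N → Ω) → (Fin p → Ω) → Ω → ℝ) :
    ∑ w : Fin N → Ω, ∑ y : Fin p → Ω, (∏ l, mu s ν Z (w l)) * (∏ k, mu s ν Z (y k)) * E w y *
        (∑ x, mu s ν Z x * G w y x) ^ 2 =
      (𝔼 w ∈ Fintype.piFinset (fun _ : Fin N => s), 𝔼 y ∈ Fintype.piFinset (fun _ : Fin p => s),
        (∏ l, ν (w l)) * (∏ k, ν (y k)) * E w y * (𝔼 x ∈ s, ν x * G w y x) ^ 2) /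
        Z ^ (N + p + 2) := by
  have h : ∀ w : Fin N → Ω, ∑ y : Fin p → Ω, (∏ l, mu s ν Z (w l)) * (∏ k, mu s ν Z (y k)) *
      E w y * (∑ x, mu s ν Z x * G w y x) ^ 2 = (∏ l, mu s ν Z (w l)) *
        ((𝔼 y ∈ Fintype.piFinset (fun _ : Fin p => s), (∏ k, ν (y k)) *
          (E w y * (𝔼 x ∈ s, ν x * G w y x) ^ 2 / Z ^ 2)) / Z ^ p) := fun w => by
    rw [← sum_pi, mul_sum]
    refine sum_congr rfl fun y _ => ?_
    rw [sum_one]
    ring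
  rw [sum_congr rfl fun w _ => h w, sum_pi, expect_div, expect_div]
  refine expect_congr rfl fun w _ => ?_
  rw [expect_div, mul_expect, expect_div, expect_div]
  exact expect_congr rfl fun y _ => by ring

theorem num {CH C : ℕ} {Y : ℝ} (hC : CH + 3 ≤ C) (hY : (C : ℝ) ≤ Y) :
    3 ≤ Y ∧ 1 ≤ Y ^ CH ∧ Y ^ 2 * Y ^ CH ≤ Y ^ C := by
  have h1 : ((CH + 3 : ℕ) : ℝ) ≤ C := by exact_mod_cast hC
  have h2 : (0 : ℝ) ≤ CH := Nat.cast_nonneg _
  push_cast at h1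
  have h3 : 3 ≤ Y := by linarith
  refine ⟨h3, one_le_pow₀ (by linarith), ?_⟩
  rw [← pow_add]
  exact pow_le_pow_right₀ (by linarith) (by omega)

theorem nums {CH C : ℕ} {Y δ a : ℝ} (hC : CH + 3 ≤ C) (hY : (C : ℝ) ≤ Y) (ha0 : 0 < a)
    (ha : 20 / a ≤ C) (hδ0 : 0 ≤ δ) (hδ : δ ≤ Real.exp (-Y ^ C)) :
    δ ≤ a / 20 ∧ 9 * Y ^ CH * δ ≤ 1 ∧
      4 * (Real.exp Y * Real.exp Y * δ) ≤ Real.exp (-Y ^ CH) := by
  obtain ⟨y3, y1, y2⟩ := num hC hY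
  generalize Y ^ CH = P at *
  generalize Y ^ C = R at *
  have y4 : 9 ≤ Y ^ 2 := by nlinarith
  have y5 : 9 * P ≤ R := (mul_le_mul_of_nonneg_right y4 (by linarith)).trans y2
  have y6 : P + 2 * Y + 2 ≤ R := by
    have : (Y ^ 2 - 1) * 1 ≤ (Y ^ 2 - 1) * P := mul_le_mul_of_nonneg_left y1 (by linarith)
    nlinarith
  have hδR : δ * R ≤ 1 := by
    have a1 : R ≤ Real.exp R := by linarith [Real.add_one_le_exp R]
    calc δ * R ≤ Real.exp (-R) * Real.exp R :=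
          mul_le_mul hδ a1 (by linarith) (Real.exp_pos _).le
      _ = 1 := by rw [← Real.exp_add]; simp
  refine ⟨?_, ?_, ?_⟩
  · have a3 : δ * (20 / a) ≤ 1 :=
      (mul_le_mul_of_nonneg_left (ha.trans (hY.trans (by linarith))) hδ0).trans hδR
    rw [← mul_div_assoc, div_le_one ha0] at a3
    linarith
  · have := mul_le_mul_of_nonneg_right y5 hδ0
    linarith
  · have a1 : (4 : ℝ) ≤ Real.exp 2 := by
      have := Real.add_one_le_exp (1 : ℝ)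
      have e2 : Real.exp 2 = Real.exp 1 * Real.exp 1 := by rw [← Real.exp_add]; norm_num
      nlinarith
    calc 4 * (Real.exp Y * Real.exp Y * δ) ≤
          Real.exp 2 * (Real.exp Y * Real.exp Y * Real.exp (-R)) := by gcongr
      _ = Real.exp (2 + (Y + Y + -R)) := by simp only [Real.exp_add]
      _ ≤ _ := Real.exp_le_exp.2 (by linarith)

variable {e : Ω → Ω → ℝ} {δ δ' E a eH : ℝ}

theorem cut_ok (hE : 0 < E) (hν : ∀ x, 0 ≤ ν x ∧ ν x ≤ E) (z3 : 1 / 2 ≤ Z) (h0 : 0 ≤ δ')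
    (hδ : 4 * (E * E * δ) ≤ δ')
    (hcut : ∀ u v : Ω → ℝ, (∀ x, |u x| ≤ 1) → (∀ y, |v y| ≤ 1) →
      |𝔼 x ∈ s, 𝔼 y ∈ s, u x * v y * (e x y - 1)| ≤ δ) (u v : Ω → ℝ) (hu : ∀ x, |u x| ≤ 1)
    (hv : ∀ y, |v y| ≤ 1) :
    |∑ x, ∑ y, mu s ν Z x * mu s ν Z y * u x * v y * (e x y - 1)| ≤ δ' := by
  have z0 : 0 < Z := by linarith
  have b : ∀ u : Ω → ℝ, (∀ x, |u x| ≤ 1) → ∀ x, |ν x / E * u x| ≤ 1 := fun u hu x => by
    rw [abs_mul, abs_of_nonneg (div_nonneg (hν x).1 hE.le)]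
    exact mul_le_one₀ ((div_le_one hE).2 (hν x).2) (abs_nonneg _) (hu x)
  have a1 := hcut _ _ (b u hu) (b v hv)
  have a2 := sum_two (s := s) (ν := ν) (Z := Z) fun x y => u x * v y * (e x y - 1)
  have a3 : (𝔼 x ∈ s, 𝔼 y ∈ s, ν x * ν y * (u x * v y * (e x y - 1))) =
      E * E * 𝔼 x ∈ s, 𝔼 y ∈ s, ν x / E * u x * (ν y / E * v y) * (e x y - 1) := by
    rw [mul_expect]
    refine expect_congr rfl fun x _ => ?_
    rw [mul_expect]
    refine expect_congr rfl fun y _ => ?_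
    field_simp
  rw [a3] at a2
  simp only [← mul_assoc (mu s ν Z _ * mu s ν Z _)] at a2
  rw [a2, abs_div, abs_mul, abs_of_pos (by positivity : 0 < E * E),
    abs_of_pos (by positivity : 0 < Z ^ 2), div_le_iff₀ (by positivity)]
  have a4 := mul_le_mul_of_nonneg_left a1 (by positivity : 0 ≤ E * E)
  have a5 : 1 / 4 ≤ Z ^ 2 := by nlinarith
  have a6 := mul_le_mul_of_nonneg_left a5 h0
  linarith

theorem tri_ok (z0 : 0 < Z) (z2 : Z ≤ 1 + δ) (h0 : 0 ≤ δ) (hδ : δ ≤ a / 20) (ha1 : a ≤ 1)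
    (haH : a ≤ eH) {G : (Fin 3 → Ω) → ℝ} (h : 1 - a / 20 ≤ tri s ν e G) :
    1 - eH ≤ ∑ y : Fin 3 → Ω, (∏ l, mu s ν Z (y l)) *
      (e (y 0) (y 1) * e (y 0) (y 2) * e (y 1) (y 2)) * G y := by
  have a2 := sum_pi (s := s) (ν := ν) (Z := Z) fun y : Fin 3 → Ω =>
    (e (y 0) (y 1) * e (y 0) (y 2) * e (y 1) (y 2)) * G y
  simp only [← mul_assoc] at a2 ⊢
  simp only [tri, ← mul_assoc] at h
  rw [a2, le_div_iff₀ (by positivity)]
  have a3 : Z ^ 3 ≤ (1 + δ) ^ 3 := pow_le_pow_left₀ z0.le z2 3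
  have b1 : δ * δ ≤ δ := mul_le_of_le_one_left h0 (by linarith)
  have b2 : δ * δ * δ ≤ δ := mul_le_of_le_one_left h0 (by linarith)
  have a4 : (1 + δ) ^ 3 ≤ 1 + 7 * δ := by linarith
  have a5 : (1 - eH) * Z ^ 3 ≤ (1 - a) * Z ^ 3 :=
    mul_le_mul_of_nonneg_right (by linarith) (by positivity)
  have a6 : (1 - a) * Z ^ 3 ≤ (1 - a) * (1 + 7 * δ) :=
    mul_le_mul_of_nonneg_left (a3.trans a4) (by linarith)
  have a7 : 0 ≤ a * δ := mul_nonneg (by linarith) h0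
  linarith

theorem sl_ok (z3 : 1 / 2 ≤ Z) (h0 : 0 ≤ δ') (hδ : 2 * δ ≤ δ') (haH : a ≤ eH)
    {A B G : Ω → ℝ} (h1 : ∀ w, 0 ≤ ν w * A w * B w)
    (h : 𝔼 w ∈ s, ν w * A w * B w * G w ≤ (1 + a) * (𝔼 w ∈ s, ν w * A w * B w) + δ) :
    ∑ w, mu s ν Z w * A w * B w * G w ≤ (1 + eH) * ∑ w, mu s ν Z w * A w * B w + δ' := by
  have z0 : 0 < Z := by linarith
  have a2 := sum_one (s := s) (ν := ν) (Z := Z) fun w => A w * B w * G w
  have a3 := sum_one (s := s) (ν := ν) (Z := Z) fun w => A w * B w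
  simp only [← mul_assoc] at a2 a3
  have a4 : 0 ≤ 𝔼 w ∈ s, ν w * A w * B w := expect_nonneg fun w _ => h1 w
  rw [a2, a3, ← mul_div_assoc, div_add' _ _ _ z0.ne', div_le_div_iff_of_pos_right z0]
  have a5 := mul_le_mul_of_nonneg_right (by linarith : 1 + a ≤ 1 + eH) a4
  have a6 := mul_le_mul_of_nonneg_left z3 h0
  linarith

theorem cnt_ok (z3 : 1 / 2 ≤ Z) (h0 : 0 ≤ a) (haH : a ≤ eH) {f : Fin 4 → (Fin 3 → Ω) → ℝ}
    (h : cnt s ν e f ≤ a / 20) : ∑ y : Fin 4 → Ω, (∏ l, mu s ν Z (y l)) *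
      (e (y 0) (y 1) * e (y 0) (y 2) * e (y 0) (y 3) * e (y 1) (y 2) * e (y 1) (y 3) *
        e (y 2) (y 3)) * ∏ i : Fin 4, f i (y ∘ i.succAbove) ≤ eH := by
  have a2 := sum_pi (s := s) (ν := ν) (Z := Z) fun y : Fin 4 → Ω =>
    (e (y 0) (y 1) * e (y 0) (y 2) * e (y 0) (y 3) * e (y 1) (y 2) * e (y 1) (y 3) *
      e (y 2) (y 3)) * ∏ i : Fin 4, f i (y ∘ i.succAbove)
  simp only [← mul_assoc] at a2 ⊢
  simp only [cnt, ← mul_assoc] at h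
  rw [a2, div_le_iff₀ (by positivity)]
  have a3 : (1 / 2 : ℝ) ^ 4 ≤ Z ^ 4 := pow_le_pow_left₀ (by norm_num) z3 4
  have a4 := mul_le_mul_of_nonneg_left a3 (h0.trans haH)
  linarith

theorem pow_ok {k : ℕ} {P : ℝ} (z1 : 1 - δ ≤ Z) (h0 : 0 ≤ δ) (h1 : δ ≤ 1) (hk : (k : ℝ) ≤ 4 * P)
    (hP : 9 * P * δ ≤ 1) : 1 / 2 ≤ Z ^ k := by
  have a2 : 1 + (k : ℝ) * (-δ) ≤ (1 + -δ) ^ k := one_add_mul_le_pow (by linarith) _
  have a3 : (1 + -δ) ^ k ≤ Z ^ k := pow_le_pow_left₀ (by linarith) (by linarith) _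
  have a4 : (k : ℝ) * δ ≤ 4 * P * δ := mul_le_mul_of_nonneg_right hk h0
  linarith

end HgeX

open HgeX

theorem hge_of (h : HG) : HGE := by
  obtain ⟨e1, h1, h1', eH, heH, CH, h⟩ := h
  obtain ⟨a, ha0, ha1, haH⟩ : ∃ a : ℝ, 0 < a ∧ a ≤ 1 ∧ a ≤ eH :=
    ⟨min eH 1, lt_min heH one_pos, min_le_right _ _, min_le_left _ _⟩
  refine ⟨e1, h1, h1', a / 20, by positivity, by linarith, CH + 3 + ⌈20 / a⌉₊, ?_⟩
  obtain ⟨C, hC⟩ : ∃ C, C = CH + 3 + ⌈20 / a⌉₊ := ⟨_, rfl⟩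
  rw [← hC]
  intro X Y δ Q _ n T ν e f hX hXY hY hδ0 hδ hT hν hZ hsym he hcut hf htri hsl hcnt
  obtain ⟨y3, y1, -⟩ := num (CH := CH) (by omega) (hX.trans hXY)
  obtain ⟨x3, -, -⟩ := num (CH := CH) (by omega) hX
  obtain ⟨hδa, hδP, hδH⟩ := nums (CH := CH) (by omega) (hX.trans hXY) ha0
    ((Nat.le_ceil _).trans (by exact_mod_cast (by omega : ⌈20 / a⌉₊ ≤ C))) hδ0 hδ
  have hXP : X ^ CH ≤ Y ^ CH := pow_le_pow_left₀ (by linarith) hXY _
  have hXC : X ^ CH ≤ X ^ C := pow_le_pow_right₀ (by linarith) (by omega)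
  have hYC : Y ^ CH ≤ Y ^ C := pow_le_pow_right₀ (by linarith) (by omega)
  have hE : 1 ≤ Real.exp Y := Real.one_le_exp (by linarith)
  have hE2 : 1 * δ ≤ Real.exp Y * Real.exp Y * δ :=
    mul_le_mul_of_nonneg_right (one_le_mul_of_one_le_of_one_le hE hE) hδ0
  obtain ⟨Z, hZd⟩ : ∃ Z, Z = 𝔼 x ∈ bx Q n T, ν x := ⟨_, rfl⟩
  rw [← hZd] at hZ
  obtain ⟨z1, z2⟩ := abs_le.1 hZ
  have z3 : 1 / 2 ≤ Z := by linarith
  have z0 : 0 < Z := by linarith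
  have hμ : ∀ x, 0 ≤ mu (bx Q n T) ν Z x := fun x => by
    unfold mu
    split_ifs
    · exact div_nonneg (hν x).1 (by positivity)
    · exact le_rfl
  have hs : ∑ x, mu (bx Q n T) ν Z x = 1 := by
    have := sum_one (s := bx Q n T) (ν := ν) (Z := Z) fun _ => 1
    simp only [mul_one] at this
    rw [this, ← hZd, div_self z0.ne']
  obtain ⟨i, σ, p, N, p1, p2, n1, n2, n3, hg⟩ := h X Y (Real.exp (-Y ^ CH)) (V Q n)
    (mu (bx Q n T) ν Z) e f ((by exact_mod_cast (by omega : CH ≤ C) : (CH : ℝ) ≤ C).trans hX) hXY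
    (hYC.trans hY) (Real.exp_pos _).le le_rfl hμ hs hsym he
    (cut_ok (Real.exp_pos _) hν z3 (Real.exp_pos _).le hδH hcut) hf
    (fun i => tri_ok z0 (by linarith) hδ0 hδa ha1 haH (htri i))
    (fun i σ x y => sl_ok z3 (Real.exp_pos _).le (by linarith) (by linarith)
      (fun w => mul_nonneg (mul_nonneg (hν w).1 (he x w).1) (he y w).1) (hsl i σ x y))
    (cnt_ok z3 ha0.le haH hcnt)
  refine ⟨i, σ, p, N, p1, p2.trans hXC, n1, n2.trans hXC, n3, ?_⟩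
  have a1 := sum_grid (s := bx Q n T) (ν := ν) (Z := Z)
    (fun (w : Fin N → V Q n) (y : Fin p → V Q n) => ∏ k, ∏ l, e (y k) (w l))
    fun w y x => (∏ l, e x (w l)) * (∏ k, e x (y k)) * ∏ k, ∏ l, f i (![x, y k, w l] ∘ σ)
  simp only [← mul_assoc] at a1
  rw [a1, le_div_iff₀ (by positivity)] at hg
  have a6 : 1 / 2 ≤ Z ^ (N + p + 2) := pow_ok (by linarith) hδ0 (by linarith) (by
    push_cast
    linarith) hδP
  have a7 := mul_le_mul_of_nonneg_left a6 (by positivity : 0 ≤ (1 + e1) ^ (2 * p * N))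
  unfold grid
  linarith

end

end Vale.Agent.P057Z.Sa
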