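import Vale.Agent.P057Z.Bas0

/-! Rows of the block START. -/

set_option linter.all false

open Finset
open scoped BigOperators

namespace Vale.Agent.P057Z.Sa

noncomputable section

section
variable {Q : ℕ} [Fact Q.Prime] {n : ℕ} {ι : Type} [Fintype ι] [DecidableEq ι]

/-- the linear part of q at x -/
def lx (q : Quad Q n ι) (x : V Q n) : V Q n →ₗ[ZMod Q] (ι → ZMod Q) := q.l + q.B x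

/-- weighted mean over a triangle -/
def tri {α : Type} [DecidableEq α] (s : Finset α) (ν : α → ℝ) (e : α → α → ℝ)
    (G : (Fin 3 → α) → ℝ) : ℝ :=
  𝔼 y ∈ Fintype.piFinset (fun _ : Fin 3 => s),
    (∏ l, ν (y l)) * (e (y 0) (y 1) * e (y 0) (y 2) * e (y 1) (y 2)) * G y

/-- weighted count over the complete graph on four vertices -/
def cnt {α : Type} [DecidableEq α] (s : Finset α) (ν : α → ℝ) (e : α → α → ℝ)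
    (f : Fin 4 → (Fin 3 → α) → ℝ) : ℝ :=
  𝔼 y ∈ Fintype.piFinset (fun _ : Fin 4 => s), (∏ l, ν (y l)) *
    (e (y 0) (y 1) * e (y 0) (y 2) * e (y 0) (y 3) * e (y 1) (y 2) * e (y 1) (y 3) * e (y 2) (y 3)) *
      ∏ i : Fin 4, f i (y ∘ i.succAbove)

/-- the coefficients of the four points -/
def cf (i : Fin 4) (l : Fin 3) : ℤ := ((i.succAbove l : ℕ) : ℤ) - ((i : ℕ) : ℤ)

/-- the four functions -/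
def fi (f : V Q n → ℝ) (x0 : V Q n) (i : Fin 4) (y : Fin 3 → V Q n) : ℝ :=
  f (x0 + ∑ l, cf i l • y l)

/-- the weight of a triangle with base point x -/
def wt (q : Quad Q n ι) (K : Submodule (ZMod Q) (ι → ZMod Q)) (φ φ0 : (ι → ZMod Q) → ℝ)
    (x : V Q n) (y : Fin 3 → V Q n) : ℝ :=
  (∏ l, nv (lx q x) q.B K φ φ0 (y l)) *
    (ne q.B K φ (y 0) (y 1) * ne q.B K φ (y 0) (y 2) * ne q.B K φ (y 1) (y 2))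

/-- the standing hypotheses; S bounds all sizes, s the equidistribution errors -/
structure Ok (q : Quad Q n ι) (K : Submodule (ZMod Q) (ι → ZMod Q)) (φ φ0 : (ι → ZMod Q) → ℝ)
    (K0 K1 : ℕ) (ρ' ρ0 M η δ : ℝ) (Tlo Thi : ℕ) (S s : ℝ) : Prop where
  triv : Triv q K
  reg : Reg q.B K K1 δ Tlo Thi
  hK : 1000 * K0 ≤ K1
  k1 : Kern ρ' φ K0 M η
  k0 : Kern ρ0 φ0 K0 M η
  hδ : 0 ≤ δ
  hlo : 1 ≤ Tlo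
  hhi : Thi ≤ Q
  hQ : 12 < Q
  hS : 10 ≤ S
  m1 : 1 ≤ S * avg K φ 0
  m0 : 1 ≤ S * avg K φ0 0
  hM : M ≤ S
  hn : (n : ℝ) ≤ S
  hc : (Fintype.card ι : ℝ) ≤ S
  r0 : 0 < ρ0
  r1 : ρ0 ≤ ρ'
  r2 : 1 ≤ S * ρ'
  hs : M * δ + 2 * η ≤ s
  hη : 0 ≤ η

end

/-- products of trigonometric approximations -/
def FAP : Prop :=
  ∀ (Q : ℕ) [Fact Q.Prime] (ι κ : Type) [Fintype ι] [DecidableEq ι] [Fintype κ] [DecidableEq κ]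
    (Φ1 : (ι → ZMod Q) → ℝ) (Φ2 : (κ → ZMod Q) → ℝ) (K0 : ℕ) (M1 η1 M2 η2 S : ℝ),
    FA Φ1 K0 M1 η1 → FA Φ2 K0 M2 η2 → (∀ u, |Φ2 u| ≤ S) →
    FA (fun u : ι ⊕ κ → ZMod Q => Φ1 (u ∘ Sum.inl) * Φ2 (u ∘ Sum.inr)) K0 (M1 * M2)
      (η1 * S + M1 * η2)

/-- averages over triples and quadruples as iterated averages -/
def PI : Prop :=
  ∀ (α : Type) [DecidableEq α] (s : Finset α),
    (∀ (G : (Fin 3 → α) → ℝ) (σ : Equiv.Perm (Fin 3)),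
      𝔼 y ∈ Fintype.piFinset (fun _ : Fin 3 => s), G y =
        𝔼 x ∈ s, 𝔼 y ∈ s, 𝔼 w ∈ s, G (![x, y, w] ∘ σ)) ∧
    (∀ G : (Fin 4 → α) → ℝ, 𝔼 y ∈ Fintype.piFinset (fun _ : Fin 4 => s), G y =
        𝔼 x ∈ s, 𝔼 y ∈ s, 𝔼 z ∈ s, 𝔼 w ∈ s, G ![x, y, z, w])

/-- lower bound of the means of the kernels -/
def KER : Prop :=
  ∀ (Q : ℕ) [Fact Q.Prime] (ι : Type) [Fintype ι] [DecidableEq ι]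
    (K : Submodule (ZMod Q) (ι → ZMod Q)) (φ : (ι → ZMod Q) → ℝ) (K0 : ℕ) (ρ M η Y : ℝ),
    Kern ρ φ K0 M η → 10 ≤ Y → (Fintype.card ι : ℝ) ≤ Y → Real.exp (-Y) ≤ ρ → ρ ≤ 1 →
    Real.exp (-(3 * Y ^ 2)) ≤ avg K φ 0 ∧ avg K φ 0 ≤ 1

/-- cut norm of the edge weight, mean of the quadratic and of the full vertex weight -/
def VTX : Prop :=
  ∀ (Q : ℕ) [Fact Q.Prime] (n : ℕ) (ι : Type) [Fintype ι] [DecidableEq ι] (q : Quad Q n ι)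
    (K : Submodule (ZMod Q) (ι → ZMod Q)) (φ φ0 : (ι → ZMod Q) → ℝ) (K0 K1 : ℕ)
    (ρ' ρ0 M η δ : ℝ) (Tlo Thi : ℕ) (S s : ℝ) (T T1 T2 : ℕ),
    Ok q K φ φ0 K0 K1 ρ' ρ0 M η δ Tlo Thi S s → Tlo ≤ T2 → T2 ≤ T1 → T1 ≤ T → T ≤ Thi →
    (∀ u v : V Q n → ℝ, (∀ x, |u x| ≤ 1) → (∀ y, |v y| ≤ 1) →
      |𝔼 x ∈ bx Q n T1, 𝔼 y ∈ bx Q n T1, u x * v y * (ne q.B K φ x y - 1)| ≤ S * s) ∧
    |(𝔼 y ∈ bx Q n T1, φ0 ((12 : ZMod Q)⁻¹ • q.B y y) / avg K φ0 0) - 1| ≤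
      S ^ 4 * (s + (T2 : ℝ) / T1) ∧
    𝔼 x ∈ bx Q n T, |(𝔼 y ∈ bx Q n T1, nv (lx q x) q.B K φ φ0 y) - 1| ≤
      S ^ 5 * (s + (T2 : ℝ) / T1)

/-- mass of the triangle -/
def TRI : Prop :=
  ∀ (α : Type) [DecidableEq α] (s : Finset α) (ν : α → ℝ) (e : α → α → ℝ) (S γ γ1 : ℝ),
    s.Nonempty → 1 ≤ S → (∀ x, 0 ≤ ν x ∧ ν x ≤ S) → (∀ x y, 0 ≤ e x y ∧ e x y ≤ S) →
    (∀ u v : α → ℝ, (∀ x, |u x| ≤ 1) → (∀ y, |v y| ≤ 1) →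
      |𝔼 x ∈ s, 𝔼 y ∈ s, u x * v y * (e x y - 1)| ≤ γ1) →
    |(𝔼 x ∈ s, ν x) - 1| ≤ γ → γ ≤ 1 → |tri s ν e (fun _ => 1) - 1| ≤ 7 * γ + 3 * S ^ 5 * γ1

/-- slices are cells -/
def SLICE : Prop :=
  ∀ (Q : ℕ) [Fact Q.Prime] (n : ℕ) (ι : Type) [Fintype ι] [DecidableEq ι] (q : Quad Q n ι)
    (K : Submodule (ZMod Q) (ι → ZMod Q)) (φ φ0 : (ι → ZMod Q) → ℝ) (K0 K1 : ℕ)
    (ρ' ρ0 M η δ : ℝ) (Tlo Thi : ℕ) (S s : ℝ) (T W J : ℕ) (f : V Q n → ℝ) (θ R Λ κ' : ℝ)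
    (x0 x y z : V Q n) (c : ℤ),
    Ok q K φ φ0 K0 K1 ρ' ρ0 M η δ Tlo Thi S s → 1 ≤ J → 12 * J * Fintype.card ι ≤ n →
    (12 * J * Fintype.card ι : ℝ) ≤ R → S ^ 4 ≤ W → W ^ 10 ≤ T → T < Q → 4 * Real.log W ≤ Λ →
    (∀ x, 0 ≤ f x ∧ f x ≤ S) → 0 ≤ θ → θ ≤ 2 → 0 ≤ κ' → c ≠ 0 → |c| ≤ 3 →
    ¬ Inc f θ T R (1 / J) Λ (Fintype.card ι) (1 / ρ0) κ' →
    𝔼 w ∈ bx Q n (T / W), nv (lx q x0) q.B K φ φ0 w * ne q.B K φ x w * ne q.B K φ y w *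
        f (z + c • w) ≤
      θ * (𝔼 w ∈ bx Q n (T / W), nv (lx q x0) q.B K φ φ0 w * ne q.B K φ x w * ne q.B K φ y w) +
        (S ^ 4 * κ' + S ^ 12 / W)

/-- the weight of the cell hardly moves along a triangle -/
def LOW1 : Prop :=
  ∀ (Q : ℕ) [Fact Q.Prime] (n : ℕ) (ι : Type) [Fintype ι] [DecidableEq ι] (q : Quad Q n ι)
    (K : Submodule (ZMod Q) (ι → ZMod Q)) (φ φ0 Ψ : (ι → ZMod Q) → ℝ) (K0 K1 : ℕ)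
    (ρ' ρ0 M η δ : ℝ) (Tlo Thi : ℕ) (S s lam t e : ℝ) (c : Fin 3 → ℤ) (x : V Q n)
    (y : Fin 3 → V Q n),
    Ok q K φ φ0 K0 K1 ρ' ρ0 M η δ Tlo Thi S s → LL lam Ψ → 0 ≤ lam → lam ≤ S → 0 ≤ t →
    500 * lam * t ≤ e → (∀ l, |c l| ≤ 3) →
    (1 - e) * Ψ (q.ev (x + ∑ l, c l • y l)) * wt q K φ φ0 x y - S ^ 14 * Real.exp (-t / ρ') ≤
      Ψ (q.ev x) * wt q K φ φ0 x y

/-- seen from the end point the weight has mean one -/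
def LOW2 : Prop :=
  ∀ (Q : ℕ) [Fact Q.Prime] (n : ℕ) (ι : Type) [Fintype ι] [DecidableEq ι] (q : Quad Q n ι)
    (K : Submodule (ZMod Q) (ι → ZMod Q)) (φ φ0 : (ι → ZMod Q) → ℝ) (K0 K1 : ℕ)
    (ρ' ρ0 M η δ : ℝ) (Tlo Thi : ℕ) (S s : ℝ) (T T1 T2 : ℕ) (c : Fin 3 → ℤ) (U : V Q n → ℝ),
    Ok q K φ φ0 K0 K1 ρ' ρ0 M η δ Tlo Thi S s → Tlo ≤ T2 → T2 ≤ T1 → T1 ≤ T → T ≤ Thi →
    S ^ 14 * (s + (T2 : ℝ) / T1) ≤ 1 → (∀ z, 0 ≤ U z ∧ U z ≤ 1) →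
    |(𝔼 z ∈ bx Q n T, U z * 𝔼 y ∈ Fintype.piFinset (fun _ : Fin 3 => bx Q n T1),
        wt q K φ φ0 (z - ∑ l, c l • y l) y) - 𝔼 z ∈ bx Q n T, U z| ≤ S ^ 14 * (s + (T2 : ℝ) / T1)

/-- the local means are large on average -/
def LOW : Prop :=
  ∀ (Q : ℕ) [Fact Q.Prime] (n : ℕ) (ι : Type) [Fintype ι] [DecidableEq ι] (q : Quad Q n ι)
    (K : Submodule (ZMod Q) (ι → ZMod Q)) (φ φ0 Ψ : (ι → ZMod Q) → ℝ) (K0 K1 : ℕ)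
    (ρ' ρ0 M η δ : ℝ) (Tlo Thi : ℕ) (S s lam t e : ℝ) (T T1 T2 : ℕ) (c : Fin 3 → ℤ)
    (f : V Q n → ℝ),
    Ok q K φ φ0 K0 K1 ρ' ρ0 M η δ Tlo Thi S s → Tlo ≤ T2 → T2 ≤ T1 → T1 ≤ T → T ≤ Thi →
    S ^ 14 * (s + (T2 : ℝ) / T1) ≤ 1 → LL lam Ψ → 0 ≤ lam → lam ≤ S → 0 ≤ t →
    500 * lam * t ≤ e → e ≤ 1 → (∀ l, |c l| ≤ 3) → (∀ x, 0 ≤ f x ∧ f x ≤ S) →
    (1 - e) * (𝔼 x ∈ bx Q n T, Ψ (q.ev x) * f x) -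
        S ^ 16 * (s + (T2 : ℝ) / T1 + (T1 : ℝ) / T + Real.exp (-t / ρ')) ≤
      𝔼 x ∈ bx Q n T, Ψ (q.ev x) * tri (bx Q n T1) (nv (lx q x) q.B K φ φ0) (ne q.B K φ)
        (fun y => f (x + ∑ l, c l • y l))

open Classical in
/-- choice of the base point -/
def PICK : Prop :=
  ∀ (α : Type) (s : Finset α) (w : α → ℝ) (mn : Fin 4 → α → ℝ) (good : α → Prop)
    (e β S : ℝ), s.Nonempty → (∀ x, 0 ≤ w x ∧ w x ≤ 1) → (∀ i x, mn i x ≤ S) → 0 ≤ S → 0 < e →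
    (𝔼 x ∈ s, if good x then (0 : ℝ) else 1) ≤ β → 0 < 𝔼 x ∈ s, w x → 2 * β ≤ 𝔼 x ∈ s, w x →
    (∀ i, (1 - e) * (𝔼 x ∈ s, w x) + β * S ≤ 𝔼 x ∈ s, w x * mn i x) →
    (∀ i x, good x → mn i x ≤ 1 + 2 * e) →
    ∃ x ∈ s, good x ∧ ∀ i, 1 - 22 * e ≤ mn i x

/-- only constant progressions are counted -/
def CNT : Prop :=
  ∀ (Q : ℕ) [Fact Q.Prime] (n T : ℕ) (f ν : V Q n → ℝ) (e : V Q n → V Q n → ℝ) (x0 : V Q n)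
    (S : ℝ), 1 ≤ n → 1 ≤ T → T ≤ Q → Free f → (∀ x, 0 ≤ f x ∧ f x ≤ S) →
    (∀ x, 0 ≤ ν x ∧ ν x ≤ S) → (∀ x y, 0 ≤ e x y ∧ e x y ≤ S) →
    cnt (bx Q n T) ν e (fi f x0) ≤ S ^ 14 / T

/-- the hypergraph step for weights on a box -/
def HGE : Prop :=
  ∃ e1 : ℝ, 0 < e1 ∧ e1 ≤ 1 ∧ ∃ e0 : ℝ, 0 < e0 ∧ e0 ≤ 1 ∧ ∃ C : ℕ, ∀ (X Y δ : ℝ) (Q : ℕ)
    [Fact Q.Prime] (n T : ℕ) (ν : V Q n → ℝ) (e : V Q n → V Q n → ℝ)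
    (f : Fin 4 → (Fin 3 → V Q n) → ℝ),
    (C : ℝ) ≤ X → X ≤ Y → Y ^ C ≤ Real.exp X → 0 ≤ δ → δ ≤ Real.exp (-Y ^ C) → 1 ≤ T →
    (∀ x, 0 ≤ ν x ∧ ν x ≤ Real.exp Y) → |(𝔼 x ∈ bx Q n T, ν x) - 1| ≤ δ →
    (∀ x y, e x y = e y x) → (∀ x y, 0 ≤ e x y ∧ e x y ≤ Real.exp Y) →
    (∀ u v : V Q n → ℝ, (∀ x, |u x| ≤ 1) → (∀ y, |v y| ≤ 1) →
      |𝔼 x ∈ bx Q n T, 𝔼 y ∈ bx Q n T, u x * v y * (e x y - 1)| ≤ δ) →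
    (∀ i y, 0 ≤ f i y ∧ f i y ≤ Real.exp X) →
    (∀ i, 1 - e0 ≤ tri (bx Q n T) ν e (f i)) →
    (∀ (i : Fin 4) (σ : Equiv.Perm (Fin 3)) (x y : V Q n),
      𝔼 w ∈ bx Q n T, ν w * e x w * e y w * f i (![x, y, w] ∘ σ) ≤
        (1 + e0) * (𝔼 w ∈ bx Q n T, ν w * e x w * e y w) + δ) →
    cnt (bx Q n T) ν e f ≤ e0 →
    ∃ (i : Fin 4) (σ : Equiv.Perm (Fin 3)) (p N : ℕ), 1 ≤ p ∧ (p : ℝ) ≤ X ^ C ∧ 1 ≤ N ∧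
      (N : ℝ) ≤ X ^ C ∧ 100 ≤ e1 * N ∧
      (1 + e1) ^ (2 * p * N) / 2 ≤ grid T ν e (fun x y w => f i (![x, y, w] ∘ σ)) p N

end

end Vale.Agent.P057Z.Sa
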